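import Vale.Agent.P154.Anti.Win.T4995A
import Vale.Agent.P154.Anti.Win.T4995B

/-!
# The window from -999/2000 to -499/1000

The two sub-windows are joined.
-/

namespace Vale.Agent.P154.Anti.T4995

open Filter Topology Vale.Agent.P154.Tree

/-- Nonreconstruction at the Kesten-Stigum bound on this range of parameters. -/
theorem poisson {d lam : ℝ} (h1 : (-999/2000) ≤ lam) (h2 : lam ≤ (-499/1000)) (hd : d * lam ^ 2 = 1) :
    Tendsto (adv 3 (poissonLaw d) lam) atTop (𝓝 0) := by
  rcases le_total lam (-312/625) with h | h
  · exact T4995A.poisson h1 h hd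
  · exact T4995B.poisson h h2 hd

end Vale.Agent.P154.Anti.T4995
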