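import Vale.Agent.P154.Anti.Win.T500Scalar
import Vale.Agent.P154.Anti.Win.T500SCfg
import Vale.Agent.P154.Anti.Win.T500WCfg
import Vale.Agent.P154.Anti.SmallHalf

/-!
# Poisson offspring at the bound between -1/2 and -999/2000
-/

namespace Vale.Agent.P154.Anti.T500

open Filter Topology Box Vale.Agent.P154.Tree

/-- An exponent given over another denominator. -/
theorem expo3_ea {j : Fin (6 + 7)} {e : N3} (h : ∀ i : Fin 3, ((EA j).fn i : ℚ)
      / (((EA j).n0 + (EA j).n1 + (EA j).n2 : ℕ) : ℚ)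
      = (e.fn i : ℚ) / ((e.n0 + e.n1 + e.n2 : ℕ) : ℚ)) : expo3 (EA j) = expo3 e := by
  funext i
  rw [expo3_apply rfl i, expo3_apply rfl i]
  have := congrArg (fun x : ℚ => (x : ℝ)) (h i)
  push_cast at this
  simpa using this

/-- Nonreconstruction once the integer vectors of both configurations are nonnegative. -/
theorem poisson_of_vals (hS : Nonneg T500S.C) (hW : Nonneg T500W.C) {d lam : ℝ}
    (h1 : (-1/2) ≤ lam) (h2 : lam ≤ (-999/2000)) (hd : d * lam ^ 2 = 1) :
    Tendsto (adv 3 (poissonLaw d) lam) atTop (𝓝 0) := by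
  have hd0 : 0 ≤ d := by nlinarith [sq_nonneg lam]
  have hA := fun j => expo3_simplex (N := 30) (by norm_num)
    ((by decide : ∀ j, (EA j).n0 + (EA j).n1 + (EA j).n2 = 30) j)
  have hge : ∀ i : Fin 3, i ≠ 2 → (1 : ℝ) / 30 ≤ expo3 (EA 0) i := fun i hi => by
    rw [expo3_apply (N := 30) rfl i]
    fin_cases i <;> simp [EA, N3.fn] at hi ⊢ <;> norm_num
  have hdom : ∀ v ∈ T500S.V.map (SVec.emb sig), PW 3 (((-1/2) : ℚ) : ℝ) (fun j => expo3 (EA j))
      (fun j => (v.c j : ℝ)) (fun j => (v.b j : ℝ) * (((4008017/1000000) : ℚ) : ℝ)) (v.k : ℝ) := by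
    intro v' hv'
    obtain ⟨v, hv, rfl⟩ := List.mem_map.1 hv'
    exact pw_emb sig (fun j => by fin_cases j <;> rfl)
      (pw_of_domCheck hS T500S.basis_ok T500S.E (-1/2) (4008017/1000000) T500S.V T500S.WS T500S.check v hv)
  have hsmall : ∀ d' lam' : ℝ, (((-1/2) : ℚ) : ℝ) ≤ lam' → lam' ≤ (((-999/2000) : ℚ) : ℝ) → d' * lam' ^ 2 = 1 →
      SmallExcl (fun j => expo3 (EA j)) (fun y => 1 - Real.exp (-(d' * y))) 0 (((1/140) : ℚ) : ℝ) lam' d' := by
    intro d' lam' l1 l2 hl
    push_cast at l1 l2 ⊢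
    exact SmallHalf.smallExcl_poisson_half 0 1 11 12 (expo3_ea (by decide +kernel))
      (expo3_ea (by decide +kernel)) (expo3_ea (by decide +kernel)) (expo3_ea (by decide +kernel))
      (by norm_num) hl (by linarith) (by linarith)
  have hp : ∀ j : Fin 6, expo3 (EA (Fin.castAdd 7 j)) = expo3 (T500W.E j) := fun j => by
    fin_cases j <;> rfl
  rcases le_total (d * (((-1999/4000) : ℚ) : ℝ) ^ 2) 1 with h | h
  · exact tendsto_adv_poisson_of_sliver_at (a0 := (((-1/2) : ℚ) : ℝ)) (a := (((-1/2) : ℚ) : ℝ))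
      (b := (((-1999/4000) : ℚ) : ℝ)) (D := (4008017/1000000)) (th1 := (21/500)) (x0 := (1/140)) (r := 0) (fun j => (hA j).1)
      (fun j => (hA j).2) (by norm_num : (0 : ℝ) < 1 / 30) (hge 0 (by decide)) (hge 1 (by decide))
      (by norm_num) (by norm_num) (by norm_num) (by norm_num) (by norm_num) (by norm_num)
      (by norm_num) hdom T1 scalar1 ((windowPW_of_check hW T500W.basis_ok T500W.E (-1/2) (-1999/4000) T500W.V T500W.WL
        T500W.checkL).pad hp) T scalar (fun d' lam' l1 l2 hl => hsmall d' lam' l1 (l2.trans (by norm_num)) hl) (hd.ge.trans (mul_le_mul_of_nonneg_left (by push_cast; nlinarith) hd0)) h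
      (by linarith) hd.le
  · exact tendsto_adv_poisson_of_sliver_at (a0 := (((-1/2) : ℚ) : ℝ)) (a := (((-1999/4000) : ℚ) : ℝ))
      (b := (((-999/2000) : ℚ) : ℝ)) (D := (4008017/1000000)) (th1 := (21/500)) (x0 := (1/140)) (r := 0) (fun j => (hA j).1)
      (fun j => (hA j).2) (by norm_num : (0 : ℝ) < 1 / 30) (hge 0 (by decide)) (hge 1 (by decide))
      (by norm_num) (by norm_num) (by norm_num) (by norm_num) (by norm_num) (by norm_num)
      (by norm_num) hdom T1 scalar1 ((windowPW_of_check hW T500W.basis_ok T500W.E (-1999/4000) (-999/2000) T500W.V T500W.WR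
        T500W.checkR).pad hp) T scalar (fun d' lam' l1 l2 hl => hsmall d' lam' ((by norm_num : (((-1/2) : ℚ) : ℝ) ≤ (((-1999/4000) : ℚ) : ℝ)).trans l1) l2 hl) h ((mul_le_mul_of_nonneg_left (by push_cast; nlinarith) hd0).trans hd.le)
      (by linarith) hd.le

end Vale.Agent.P154.Anti.T500
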