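import Vale.Agent.P154.Anti.Win.T500S
import Vale.Agent.P154.Anti.Win.T500W
import Vale.Agent.P154.Anti.Win.T500Window

/-!
# Poisson offspring at the Kesten-Stigum bound next to the parameter `-1/2`

The two box certificates are joined with the glue of the dominated windows.
-/

namespace Vale.Agent.P154.Anti.T500

open Filter Topology Vale.Agent.P154.Tree

/-- Nonreconstruction at the Kesten-Stigum bound on this range of parameters. -/
theorem poisson {d lam : ℝ} (h1 : (-1/2) ≤ lam) (h2 : lam ≤ (-999/2000)) (hd : d * lam ^ 2 = 1) :
    Tendsto (adv 3 (poissonLaw d) lam) atTop (𝓝 0) :=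
  poisson_of_vals T500S.nonneg T500W.nonneg h1 h2 hd

end Vale.Agent.P154.Anti.T500
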