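import Vale.Agent.P154.Anti.BoxFast

/-!
# Composing box certificates given by literals

The boxes and index lists of the pieces are literals; one decision checks how they fit together.
-/

namespace Vale.Agent.P154.Anti.Box

variable {C : Cfg} {b b1 b2 : Bx} {ids i1 i2 : List ℕ}

/-- The two halves of a box, given by literals. -/
theorem cert_split_lit {ax : Bool}
    (h : (halfOk b ax && decide ((half b ax).1 = b1) && decide ((half b ax).2 = b2)
      && decide (i1 = ids) && decide (i2 = ids)) = true)
    (h1 : Cert C b1 i1) (h2 : Cert C b2 i2) : Cert C b ids := by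
  simp only [Bool.and_eq_true, decide_eq_true_eq] at h
  obtain ⟨⟨⟨⟨h, rfl⟩, rfl⟩, rfl⟩, rfl⟩ := h
  exact cert_split h h1 h2

/-- An increasing list is covered by two increasing lists, in one pass. -/
def covers : List ℕ → List ℕ → List ℕ → Bool
  | [], _, _ => true
  | i :: is, x :: xs, b =>
    if i = x then covers is xs b else decide (b.head? = some i) && covers is (x :: xs) b.tail
  | i :: is, [], b => decide (b.head? = some i) && covers is [] b.tail

theorem mem_of_covers : ∀ (ids a b : List ℕ), covers ids a b = true →
    ∀ j ∈ ids, j ∈ a ∨ j ∈ b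
  | i :: is, x :: xs, b, h, j, hj => by
    simp only [covers] at h
    split at h
    · subst i
      rcases List.mem_cons.1 hj with rfl | hj
      · exact Or.inl List.mem_cons_self
      · exact (mem_of_covers is xs b h j hj).imp_left (List.mem_cons_of_mem _)
    · simp only [Bool.and_eq_true, decide_eq_true_eq] at h
      rcases List.mem_cons.1 hj with rfl | hj
      · exact Or.inr (List.mem_of_mem_head? h.1)
      · exact (mem_of_covers is (x :: xs) b.tail h.2 j hj).imp_right List.mem_of_mem_tail
  | i :: is, [], b, h, j, hj => by
    simp only [covers, Bool.and_eq_true, decide_eq_true_eq] at h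
    rcases List.mem_cons.1 hj with rfl | hj
    · exact Or.inr (List.mem_of_mem_head? h.1)
    · exact (mem_of_covers is [] b.tail h.2 j hj).imp_right List.mem_of_mem_tail

/-- Two lists of vectors on one box, given by literals. -/
theorem cert_part_lit
    (h : (decide (b1 = b) && decide (b2 = b) && covers ids i1 i2) = true)
    (h1 : Cert C b1 i1) (h2 : Cert C b2 i2) : Cert C b ids := by
  simp only [Bool.and_eq_true, decide_eq_true_eq] at h
  obtain ⟨⟨rfl, rfl⟩, h⟩ := h
  refine fun i hi => ?_
  rcases mem_of_covers ids i1 i2 h i hi with h' | h'
  · exact h1 i h'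
  · exact h2 i h'

/-- The whole simplex. -/
theorem nonneg_of_root (hC : cfgOk C = true)
    (h : (decide (b = root C.D) && decide (ids = List.range C.vecs.length)) = true)
    (h1 : Cert C b ids) : Nonneg C := by
  simp only [Bool.and_eq_true, decide_eq_true_eq] at h
  obtain ⟨rfl, rfl⟩ := h
  exact nonneg_of_cert hC h1

end Vale.Agent.P154.Anti.Box
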