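import Vale.Agent.P154.Anti.Win.P450Box00
import Vale.Agent.P154.Anti.Win.P450Box01
import Vale.Agent.P154.Anti.Win.P450Box02
import Vale.Agent.P154.Anti.Win.P450Box03
import Vale.Agent.P154.Anti.Win.P450Box04
import Vale.Agent.P154.Anti.Win.Compose
import Vale.Agent.P154.Anti.Win.P450Window

/-!
# The window P450

The pieces of the box certificate are joined and the window theorem follows.
-/

namespace Vale.Agent.P154.Anti.P450

open Filter Topology Box Vale.Agent.P154.Tree

theorem cfg_ok : cfgOk C = true := by decide +kernel

theorem range_ok : ∀ i ∈ List.range 219, i < C.vecs.length := by decide +kernel

/-- The two halves of a box with the same vectors, given by literals. -/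
theorem split_same {b b1 b2 : Bx} {ids : List ℕ} {ax : Bool}
    (h : (halfOk b ax && decide ((half b ax).1 = b1) && decide ((half b ax).2 = b2)) = true)
    (h1 : Cert C b1 ids) (h2 : Cert C b2 ids) : Cert C b ids := by
  simp only [Bool.and_eq_true, decide_eq_true_eq] at h
  obtain ⟨⟨h, rfl⟩, rfl⟩ := h
  exact cert_split h h1 h2

theorem cert0 : Cert C B0 I0 :=
  cert_of_check cfg_ok range_ok check0

theorem cert1 : Cert C B1 I1 :=
  cert_of_check cfg_ok range_ok check1

theorem node0 : Cert C ⟨590295810358705651712, 885443715538058477568, 590295810358705651712, 885443715538058477568⟩
    (List.range 219) :=
  split_same (ax := false) (by decide +kernel) cert0 cert1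

theorem cert2 : Cert C B2 I2 :=
  cert_of_check cfg_ok range_ok check2

theorem node1 : Cert C ⟨1180591620717411303424, 885443715538058477568, 1180591620717411303424, 885443715538058477568⟩
    (List.range 219) :=
  split_same (ax := true) (by decide +kernel) node0 cert2

theorem cert3 : Cert C B3 I3 :=
  cert_of_check cfg_ok range_ok check3

theorem node2 : Cert C ⟨1180591620717411303424, 1770887431076116955136, 1180591620717411303424, 1770887431076116955136⟩
    (List.range 219) :=
  split_same (ax := false) (by decide +kernel) node1 cert3

theorem cert4 : Cert C B4 I4 :=
  cert_of_check cfg_ok range_ok check4

theorem node3 : Cert C ⟨2361183241434822606848, 1770887431076116955136, 2361183241434822606848, 1770887431076116955136⟩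
    (List.range 219) :=
  split_same (ax := true) (by decide +kernel) node2 cert4

theorem cert5 : Cert C B5 I5 :=
  cert_of_check cfg_ok range_ok check5

theorem node4 : Cert C ⟨2361183241434822606848, 3541774862152233910272, 2361183241434822606848, 3541774862152233910272⟩
    (List.range 219) :=
  split_same (ax := false) (by decide +kernel) node3 cert5

theorem cert6 : Cert C B6 I6 :=
  cert_of_check cfg_ok range_ok check6

theorem node5 : Cert C ⟨4722366482869645213696, 3541774862152233910272, 4722366482869645213696, 3541774862152233910272⟩
    (List.range 219) :=
  split_same (ax := true) (by decide +kernel) node4 cert6

theorem cert7 : Cert C B7 I7 :=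
  cert_of_check cfg_ok range_ok check7

theorem node6 : Cert C ⟨4722366482869645213696, 7083549724304467820544, 4722366482869645213696, 7083549724304467820544⟩
    (List.range 219) :=
  split_same (ax := false) (by decide +kernel) node5 cert7

theorem cert8 : Cert C B8 I8 :=
  cert_of_check cfg_ok range_ok check8

theorem node7 : Cert C ⟨9444732965739290427392, 7083549724304467820544, 9444732965739290427392, 7083549724304467820544⟩
    (List.range 219) :=
  split_same (ax := true) (by decide +kernel) node6 cert8

theorem cert9 : Cert C B9 I9 :=
  cert_of_check cfg_ok range_ok check9

theorem node8 : Cert C ⟨9444732965739290427392, 14167099448608935641088, 9444732965739290427392, 14167099448608935641088⟩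
    (List.range 219) :=
  split_same (ax := false) (by decide +kernel) node7 cert9

theorem cert10 : Cert C B10 I10 :=
  cert_of_check cfg_ok range_ok check10

theorem node9 : Cert C ⟨18889465931478580854784, 14167099448608935641088, 18889465931478580854784, 14167099448608935641088⟩
    (List.range 219) :=
  split_same (ax := true) (by decide +kernel) node8 cert10

theorem cert11 : Cert C B11 I11 :=
  cert_of_check cfg_ok range_ok check11

theorem node10 : Cert C ⟨18889465931478580854784, 28334198897217871282176, 18889465931478580854784, 28334198897217871282176⟩
    (List.range 219) :=
  split_same (ax := false) (by decide +kernel) node9 cert11

theorem cert12 : Cert C B12 I12 :=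
  cert_of_check cfg_ok range_ok check12

theorem node11 : Cert C ⟨37778931862957161709568, 28334198897217871282176, 37778931862957161709568, 28334198897217871282176⟩
    (List.range 219) :=
  split_same (ax := true) (by decide +kernel) node10 cert12

theorem cert13 : Cert C B13 I13 :=
  cert_of_check cfg_ok range_ok check13

theorem node12 : Cert C ⟨37778931862957161709568, 56668397794435742564352, 37778931862957161709568, 56668397794435742564352⟩
    (List.range 219) :=
  split_same (ax := false) (by decide +kernel) node11 cert13

theorem cert14 : Cert C B14 I14 :=
  cert_of_check cfg_ok range_ok check14

theorem node13 : Cert C ⟨75557863725914323419136, 56668397794435742564352, 75557863725914323419136, 56668397794435742564352⟩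
    (List.range 219) :=
  split_same (ax := true) (by decide +kernel) node12 cert14

theorem cert15 : Cert C B15 I15 :=
  cert_of_check cfg_ok range_ok check15

theorem node14 : Cert C ⟨75557863725914323419136, 113336795588871485128704, 75557863725914323419136, 113336795588871485128704⟩
    (List.range 219) :=
  split_same (ax := false) (by decide +kernel) node13 cert15

theorem cert16 : Cert C B16 I16 :=
  cert_of_check cfg_ok range_ok check16

theorem node15 : Cert C ⟨151115727451828646838272, 113336795588871485128704, 151115727451828646838272, 113336795588871485128704⟩
    (List.range 219) :=
  split_same (ax := true) (by decide +kernel) node14 cert16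

theorem cert17 : Cert C B17 I17 :=
  cert_of_check cfg_ok range_ok check17

theorem node16 : Cert C ⟨151115727451828646838272, 226673591177742970257408, 151115727451828646838272, 226673591177742970257408⟩
    (List.range 219) :=
  split_same (ax := false) (by decide +kernel) node15 cert17

theorem cert18 : Cert C B18 I18 :=
  cert_of_check cfg_ok range_ok check18

theorem node17 : Cert C ⟨302231454903657293676544, 226673591177742970257408, 302231454903657293676544, 226673591177742970257408⟩
    (List.range 219) :=
  split_same (ax := true) (by decide +kernel) node16 cert18

theorem cert19 : Cert C B19 I19 :=
  cert_of_check cfg_ok range_ok check19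

theorem node18 : Cert C ⟨302231454903657293676544, 453347182355485940514816, 302231454903657293676544, 453347182355485940514816⟩
    (List.range 219) :=
  split_same (ax := false) (by decide +kernel) node17 cert19

theorem cert20 : Cert C B20 I20 :=
  cert_of_check cfg_ok range_ok check20

theorem node19 : Cert C ⟨604462909807314587353088, 453347182355485940514816, 604462909807314587353088, 453347182355485940514816⟩
    (List.range 219) :=
  split_same (ax := true) (by decide +kernel) node18 cert20

theorem cert21 : Cert C B21 I21 :=
  cert_of_check cfg_ok range_ok check21

theorem node20 : Cert C ⟨604462909807314587353088, 906694364710971881029632, 604462909807314587353088, 906694364710971881029632⟩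
    (List.range 219) :=
  split_same (ax := false) (by decide +kernel) node19 cert21

theorem cert22 : Cert C B22 I22 :=
  cert_of_check cfg_ok range_ok check22

theorem node21 : Cert C ⟨1208925819614629174706176, 906694364710971881029632, 1208925819614629174706176, 906694364710971881029632⟩
    (List.range 219) :=
  split_same (ax := true) (by decide +kernel) node20 cert22

theorem cert23 : Cert C B23 I23 :=
  cert_of_check cfg_ok range_ok check23

theorem node22 : Cert C ⟨1208925819614629174706176, 1813388729421943762059264, 1208925819614629174706176, 1813388729421943762059264⟩
    (List.range 219) :=
  split_same (ax := false) (by decide +kernel) node21 cert23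

theorem cert24 : Cert C B24 I24 :=
  cert_of_check cfg_ok range_ok check24

theorem node23 : Cert C ⟨2417851639229258349412352, 1813388729421943762059264, 2417851639229258349412352, 1813388729421943762059264⟩
    (List.range 219) :=
  split_same (ax := true) (by decide +kernel) node22 cert24

theorem cert25 : Cert C B25 I25 :=
  cert_of_check cfg_ok range_ok check25

theorem node24 : Cert C ⟨2417851639229258349412352, 3626777458843887524118528, 2417851639229258349412352, 3626777458843887524118528⟩
    (List.range 219) :=
  split_same (ax := false) (by decide +kernel) node23 cert25

theorem cert26 : Cert C B26 I26 :=
  cert_of_check cfg_ok range_ok check26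

theorem node25 : Cert C ⟨4835703278458516698824704, 3626777458843887524118528, 4835703278458516698824704, 3626777458843887524118528⟩
    (List.range 219) :=
  split_same (ax := true) (by decide +kernel) node24 cert26

theorem cert27 : Cert C B27 I27 :=
  cert_of_check cfg_ok range_ok check27

theorem node26 : Cert C ⟨4835703278458516698824704, 7253554917687775048237056, 4835703278458516698824704, 7253554917687775048237056⟩
    (List.range 219) :=
  split_same (ax := false) (by decide +kernel) node25 cert27

theorem cert28 : Cert C B28 I28 :=
  cert_of_check cfg_ok range_ok check28

theorem node27 : Cert C ⟨9671406556917033397649408, 7253554917687775048237056, 9671406556917033397649408, 7253554917687775048237056⟩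
    (List.range 219) :=
  split_same (ax := true) (by decide +kernel) node26 cert28

theorem cert29 : Cert C B29 I29 :=
  cert_of_check cfg_ok range_ok check29

theorem node28 : Cert C ⟨9671406556917033397649408, 14507109835375550096474112, 9671406556917033397649408, 14507109835375550096474112⟩
    (List.range 219) :=
  split_same (ax := false) (by decide +kernel) node27 cert29

theorem cert30 : Cert C B30 I30 :=
  cert_of_check cfg_ok range_ok check30

theorem node29 : Cert C ⟨19342813113834066795298816, 14507109835375550096474112, 19342813113834066795298816, 14507109835375550096474112⟩
    (List.range 219) :=
  split_same (ax := true) (by decide +kernel) node28 cert30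

theorem cert31 : Cert C B31 I31 :=
  cert_of_check cfg_ok range_ok check31

theorem node30 : Cert C ⟨19342813113834066795298816, 29014219670751100192948224, 19342813113834066795298816, 29014219670751100192948224⟩
    (List.range 219) :=
  split_same (ax := false) (by decide +kernel) node29 cert31

theorem cert32 : Cert C B32 I32 :=
  cert_of_check cfg_ok range_ok check32

theorem node31 : Cert C ⟨38685626227668133590597632, 29014219670751100192948224, 38685626227668133590597632, 29014219670751100192948224⟩
    (List.range 219) :=
  split_same (ax := true) (by decide +kernel) node30 cert32

theorem cert33 : Cert C B33 I33 :=
  cert_of_check cfg_ok range_ok check33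

theorem node32 : Cert C ⟨38685626227668133590597632, 58028439341502200385896448, 38685626227668133590597632, 58028439341502200385896448⟩
    (List.range 219) :=
  split_same (ax := false) (by decide +kernel) node31 cert33

theorem cert34 : Cert C B34 I34 :=
  cert_of_check cfg_ok range_ok check34

theorem node33 : Cert C ⟨77371252455336267181195264, 58028439341502200385896448, 77371252455336267181195264, 58028439341502200385896448⟩
    (List.range 219) :=
  split_same (ax := true) (by decide +kernel) node32 cert34

theorem cert35 : Cert C B35 I35 :=
  cert_of_check cfg_ok range_ok check35

theorem node34 : Cert C ⟨77371252455336267181195264, 116056878683004400771792896, 77371252455336267181195264, 116056878683004400771792896⟩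
    (List.range 219) :=
  split_same (ax := false) (by decide +kernel) node33 cert35

theorem cert36 : Cert C B36 I36 :=
  cert_of_check cfg_ok range_ok check36

theorem node35 : Cert C ⟨154742504910672534362390528, 116056878683004400771792896, 154742504910672534362390528, 116056878683004400771792896⟩
    (List.range 219) :=
  split_same (ax := true) (by decide +kernel) node34 cert36

theorem cert37 : Cert C B37 I37 :=
  cert_of_check cfg_ok range_ok check37

theorem node36 : Cert C ⟨154742504910672534362390528, 232113757366008801543585792, 154742504910672534362390528, 232113757366008801543585792⟩
    (List.range 219) :=
  split_same (ax := false) (by decide +kernel) node35 cert37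

theorem cert38 : Cert C B38 I38 :=
  cert_of_check cfg_ok range_ok check38

theorem node37 : Cert C ⟨309485009821345068724781056, 232113757366008801543585792, 309485009821345068724781056, 232113757366008801543585792⟩
    (List.range 219) :=
  split_same (ax := true) (by decide +kernel) node36 cert38

theorem cert39 : Cert C B39 I39 :=
  cert_of_check cfg_ok range_ok check39

theorem node38 : Cert C ⟨309485009821345068724781056, 464227514732017603087171584, 309485009821345068724781056, 464227514732017603087171584⟩
    (List.range 219) :=
  split_same (ax := false) (by decide +kernel) node37 cert39

theorem cert40 : Cert C B40 I40 :=
  cert_of_check cfg_ok range_ok check40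

theorem node39 : Cert C ⟨618970019642690137449562112, 464227514732017603087171584, 618970019642690137449562112, 464227514732017603087171584⟩
    (List.range 219) :=
  split_same (ax := true) (by decide +kernel) node38 cert40

theorem cert41 : Cert C B41 I41 :=
  cert_of_check cfg_ok range_ok check41

theorem node40 : Cert C ⟨618970019642690137449562112, 928455029464035206174343168, 618970019642690137449562112, 928455029464035206174343168⟩
    (List.range 219) :=
  split_same (ax := false) (by decide +kernel) node39 cert41

theorem cert42 : Cert C B42 I42 :=
  cert_of_check cfg_ok range_ok check42

theorem node41 : Cert C ⟨618970019642690137449562112, 1856910058928070412348686336, 618970019642690137449562112, 1856910058928070412348686336⟩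
    (List.range 219) :=
  split_same (ax := false) (by decide +kernel) node40 cert42

theorem cert43 : Cert C B43 I43 :=
  cert_of_check cfg_ok range_ok check43

theorem node42 : Cert C ⟨618970019642690137449562112, 3713820117856140824697372672, 618970019642690137449562112, 3713820117856140824697372672⟩
    (List.range 219) :=
  split_same (ax := false) (by decide +kernel) node41 cert43

theorem cert44 : Cert C B44 I44 :=
  cert_of_check cfg_ok range_ok check44

theorem node43 : Cert C ⟨618970019642690137449562112, 7427640235712281649394745344, 618970019642690137449562112, 7427640235712281649394745344⟩
    (List.range 219) :=
  split_same (ax := false) (by decide +kernel) node42 cert44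

theorem cert45 : Cert C B45 I45 :=
  cert_of_check cfg_ok range_ok check45

theorem node44 : Cert C ⟨618970019642690137449562112, 14855280471424563298789490688, 618970019642690137449562112, 14855280471424563298789490688⟩
    (List.range 219) :=
  split_same (ax := false) (by decide +kernel) node43 cert45

theorem cert46 : Cert C B46 I46 :=
  cert_of_check cfg_ok range_ok check46

theorem node45 : Cert C ⟨618970019642690137449562112, 29710560942849126597578981376, 618970019642690137449562112, 29710560942849126597578981376⟩
    (List.range 219) :=
  split_same (ax := false) (by decide +kernel) node44 cert46

theorem cert47 : Cert C B47 I47 :=
  cert_of_check cfg_ok range_ok check47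

theorem node46 : Cert C ⟨618970019642690137449562112, 59421121885698253195157962752, 618970019642690137449562112, 59421121885698253195157962752⟩
    (List.range 219) :=
  split_same (ax := false) (by decide +kernel) node45 cert47

theorem cert48 : Cert C B48 I48 :=
  cert_of_check cfg_ok range_ok check48

theorem node47 : Cert C ⟨618970019642690137449562112, 118842243771396506390315925504, 618970019642690137449562112, 118842243771396506390315925504⟩
    (List.range 219) :=
  split_same (ax := false) (by decide +kernel) node46 cert48

theorem cert49 : Cert C B49 I49 :=
  cert_of_check cfg_ok range_ok check49

theorem node48 : Cert C ⟨1237940039285380274899124224, 118842243771396506390315925504, 1237940039285380274899124224, 118842243771396506390315925504⟩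
    (List.range 219) :=
  split_same (ax := true) (by decide +kernel) node47 cert49

theorem cert50 : Cert C B50 I50 :=
  cert_of_check cfg_ok range_ok check50

theorem node49 : Cert C ⟨2475880078570760549798248448, 118842243771396506390315925504, 2475880078570760549798248448, 118842243771396506390315925504⟩
    (List.range 219) :=
  split_same (ax := true) (by decide +kernel) node48 cert50

theorem cert51 : Cert C B51 I51 :=
  cert_of_check cfg_ok range_ok check51

theorem node50 : Cert C ⟨4951760157141521099596496896, 118842243771396506390315925504, 4951760157141521099596496896, 118842243771396506390315925504⟩
    (List.range 219) :=
  split_same (ax := true) (by decide +kernel) node49 cert51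

theorem cert52 : Cert C B52 I52 :=
  cert_of_check cfg_ok range_ok check52

theorem node51 : Cert C ⟨9903520314283042199192993792, 118842243771396506390315925504, 9903520314283042199192993792, 118842243771396506390315925504⟩
    (List.range 219) :=
  split_same (ax := true) (by decide +kernel) node50 cert52

theorem cert53 : Cert C B53 I53 :=
  cert_of_check cfg_ok range_ok check53

theorem node52 : Cert C ⟨19807040628566084398385987584, 118842243771396506390315925504, 19807040628566084398385987584, 118842243771396506390315925504⟩
    (List.range 219) :=
  split_same (ax := true) (by decide +kernel) node51 cert53

theorem cert54 : Cert C B54 I54 :=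
  cert_of_check cfg_ok range_ok check54

theorem node53 : Cert C ⟨39614081257132168796771975168, 118842243771396506390315925504, 39614081257132168796771975168, 118842243771396506390315925504⟩
    (List.range 219) :=
  split_same (ax := true) (by decide +kernel) node52 cert54

theorem cert55 : Cert C B55 I55 :=
  cert_of_check cfg_ok range_ok check55

theorem node54 : Cert C ⟨79228162514264337593543950336, 118842243771396506390315925504, 79228162514264337593543950336, 118842243771396506390315925504⟩
    (List.range 219) :=
  split_same (ax := true) (by decide +kernel) node53 cert55

theorem cert56 : Cert C B56 I56 :=
  cert_of_check cfg_ok range_ok check56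

theorem node55 : Cert C ⟨158456325028528675187087900672, 118842243771396506390315925504, 158456325028528675187087900672, 118842243771396506390315925504⟩
    (List.range 219) :=
  split_same (ax := true) (by decide +kernel) node54 cert56

theorem cert57 : Cert C B57 I57 :=
  cert_of_check cfg_ok range_ok check57

theorem node56 : Cert C ⟨158456325028528675187087900672, 237684487542793012780631851008, 158456325028528675187087900672, 237684487542793012780631851008⟩
    (List.range 219) :=
  split_same (ax := false) (by decide +kernel) node55 cert57

theorem cert58 : Cert C B58 I58 :=
  cert_of_check cfg_ok range_ok check58

theorem node57 : Cert C ⟨158456325028528675187087900672, 475368975085586025561263702016, 158456325028528675187087900672, 475368975085586025561263702016⟩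
    (List.range 219) :=
  split_same (ax := false) (by decide +kernel) node56 cert58

theorem cert59 : Cert C B59 I59 :=
  cert_of_check cfg_ok range_ok check59

theorem node58 : Cert C ⟨158456325028528675187087900672, 950737950171172051122527404032, 158456325028528675187087900672, 950737950171172051122527404032⟩
    (List.range 219) :=
  split_same (ax := false) (by decide +kernel) node57 cert59

theorem cert60 : Cert C B60 I60 :=
  cert_of_check cfg_ok range_ok check60

theorem node59 : Cert C ⟨158456325028528675187087900672, 1901475900342344102245054808064, 158456325028528675187087900672, 1901475900342344102245054808064⟩
    (List.range 219) :=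
  split_same (ax := false) (by decide +kernel) node58 cert60

theorem cert61 : Cert C B61 I61 :=
  cert_of_check cfg_ok range_ok check61

theorem node60 : Cert C ⟨158456325028528675187087900672, 3802951800684688204490109616128, 158456325028528675187087900672, 3802951800684688204490109616128⟩
    (List.range 219) :=
  split_same (ax := false) (by decide +kernel) node59 cert61

theorem cert62 : Cert C B62 I62 :=
  cert_of_check cfg_ok range_ok check62

theorem node61 : Cert C ⟨316912650057057350374175801344, 3802951800684688204490109616128, 316912650057057350374175801344, 3802951800684688204490109616128⟩
    (List.range 219) :=
  split_same (ax := true) (by decide +kernel) node60 cert62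

theorem cert63 : Cert C B63 I63 :=
  cert_of_check cfg_ok range_ok check63

theorem node62 : Cert C ⟨633825300114114700748351602688, 3802951800684688204490109616128, 633825300114114700748351602688, 3802951800684688204490109616128⟩
    (List.range 219) :=
  split_same (ax := true) (by decide +kernel) node61 cert63

theorem cert64 : Cert C B64 I64 :=
  cert_of_check cfg_ok range_ok check64

theorem node63 : Cert C ⟨1267650600228229401496703205376, 3802951800684688204490109616128, 1267650600228229401496703205376, 3802951800684688204490109616128⟩
    (List.range 219) :=
  split_same (ax := true) (by decide +kernel) node62 cert64

theorem cert65 : Cert C B65 I65 :=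
  cert_of_check cfg_ok range_ok check65

theorem node64 : Cert C ⟨1267650600228229401496703205376, 7605903601369376408980219232256, 1267650600228229401496703205376, 7605903601369376408980219232256⟩
    (List.range 219) :=
  split_same (ax := false) (by decide +kernel) node63 cert65

theorem cert66 : Cert C B66 I66 :=
  cert_of_check cfg_ok range_ok check66

theorem node65 : Cert C ⟨2535301200456458802993406410752, 7605903601369376408980219232256, 2535301200456458802993406410752, 7605903601369376408980219232256⟩
    (List.range 219) :=
  split_same (ax := true) (by decide +kernel) node64 cert66

theorem cert67 : Cert C B67 I67 :=
  cert_of_check cfg_ok range_ok check67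

theorem node66 : Cert C ⟨2535301200456458802993406410752, 15211807202738752817960438464512, 2535301200456458802993406410752, 15211807202738752817960438464512⟩
    (List.range 219) :=
  split_same (ax := false) (by decide +kernel) node65 cert67

theorem cert68 : Cert C B68 I68 :=
  cert_of_check cfg_ok range_ok check68

theorem node67 : Cert C ⟨2535301200456458802993406410752, 30423614405477505635920876929024, 2535301200456458802993406410752, 30423614405477505635920876929024⟩
    (List.range 219) :=
  split_same (ax := false) (by decide +kernel) node66 cert68

theorem cert69 : Cert C B69 I69 :=
  cert_of_check cfg_ok range_ok check69

theorem node68 : Cert C ⟨2535301200456458802993406410752, 60847228810955011271841753858048, 2535301200456458802993406410752, 60847228810955011271841753858048⟩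
    (List.range 219) :=
  split_same (ax := false) (by decide +kernel) node67 cert69

theorem cert70 : Cert C B70 I70 :=
  cert_of_check cfg_ok range_ok check70

theorem node69 : Cert C ⟨2535301200456458802993406410752, 121694457621910022543683507716096, 2535301200456458802993406410752, 121694457621910022543683507716096⟩
    (List.range 219) :=
  split_same (ax := false) (by decide +kernel) node68 cert70

theorem cert71 : Cert C B71 I71 :=
  cert_of_check cfg_ok range_ok check71

theorem node70 : Cert C ⟨2535301200456458802993406410752, 243388915243820045087367015432192, 2535301200456458802993406410752, 243388915243820045087367015432192⟩
    (List.range 219) :=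
  split_same (ax := false) (by decide +kernel) node69 cert71

theorem cert72 : Cert C B72 I72 :=
  cert_of_check cfg_ok range_ok check72

theorem node71 : Cert C ⟨2535301200456458802993406410752, 486777830487640090174734030864384, 2535301200456458802993406410752, 486777830487640090174734030864384⟩
    (List.range 219) :=
  split_same (ax := false) (by decide +kernel) node70 cert72

theorem cert73 : Cert C B73 I73 :=
  cert_of_check cfg_ok range_ok check73

theorem cert74 : Cert C B74 I74 :=
  cert_of_check cfg_ok range_ok check74

theorem node72 : Cert C ⟨1267650600228229401496703205376, 1460333491462920270524202092593152, 1267650600228229401496703205376, 486777830487640090174734030864384⟩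
    (List.range 219) :=
  split_same (ax := true) (by decide +kernel) cert73 cert74

theorem cert75 : Cert C B75 I75 :=
  cert_of_check cfg_ok range_ok check75

theorem node73 : Cert C ⟨2535301200456458802993406410752, 1460333491462920270524202092593152, 2535301200456458802993406410752, 486777830487640090174734030864384⟩
    (List.range 219) :=
  split_same (ax := true) (by decide +kernel) node72 cert75

theorem node74 : Cert C ⟨2535301200456458802993406410752, 973555660975280180349468061728768, 2535301200456458802993406410752, 973555660975280180349468061728768⟩
    (List.range 219) :=
  split_same (ax := false) (by decide +kernel) node71 node73

theorem cert76 : Cert C B76 I76 :=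
  cert_of_check cfg_ok range_ok check76

theorem cert77 : Cert C B77 I77 :=
  cert_of_check cfg_ok range_ok check77

theorem node75 : Cert C ⟨79228162514264337593543950336, 2920666982925840541048404185186304, 79228162514264337593543950336, 973555660975280180349468061728768⟩
    (List.range 219) :=
  split_same (ax := false) (by decide +kernel) cert76 cert77

theorem cert78 : Cert C B78 I78 :=
  cert_of_check cfg_ok range_ok check78

theorem node76 : Cert C ⟨158456325028528675187087900672, 2920666982925840541048404185186304, 158456325028528675187087900672, 973555660975280180349468061728768⟩
    (List.range 219) :=
  split_same (ax := true) (by decide +kernel) node75 cert78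

theorem cert79 : Cert C B79 I79 :=
  cert_of_check cfg_ok range_ok check79

theorem node77 : Cert C ⟨316912650057057350374175801344, 2920666982925840541048404185186304, 316912650057057350374175801344, 973555660975280180349468061728768⟩
    (List.range 219) :=
  split_same (ax := true) (by decide +kernel) node76 cert79

theorem cert80 : Cert C B80 I80 :=
  cert_of_check cfg_ok range_ok check80

theorem node78 : Cert C ⟨633825300114114700748351602688, 2920666982925840541048404185186304, 633825300114114700748351602688, 973555660975280180349468061728768⟩
    (List.range 219) :=
  split_same (ax := true) (by decide +kernel) node77 cert80

theorem cert81 : Cert C B81 I81 :=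
  cert_of_check cfg_ok range_ok check81

theorem node79 : Cert C ⟨1267650600228229401496703205376, 2920666982925840541048404185186304, 1267650600228229401496703205376, 973555660975280180349468061728768⟩
    (List.range 219) :=
  split_same (ax := true) (by decide +kernel) node78 cert81

theorem cert82 : Cert C B82 I82 :=
  cert_of_check cfg_ok range_ok check82

theorem node80 : Cert C ⟨2535301200456458802993406410752, 2920666982925840541048404185186304, 2535301200456458802993406410752, 973555660975280180349468061728768⟩
    (List.range 219) :=
  split_same (ax := true) (by decide +kernel) node79 cert82

theorem node81 : Cert C ⟨2535301200456458802993406410752, 1947111321950560360698936123457536, 2535301200456458802993406410752, 1947111321950560360698936123457536⟩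
    (List.range 219) :=
  split_same (ax := false) (by decide +kernel) node74 node80

theorem cert83 : Cert C B83 I83 :=
  cert_of_check cfg_ok range_ok check83

theorem cert84 : Cert C B84 I84 :=
  cert_of_check cfg_ok range_ok check84

theorem node82 : Cert C ⟨19807040628566084398385987584, 4867778304876400901747340308643840, 19807040628566084398385987584, 973555660975280180349468061728768⟩
    (List.range 219) :=
  split_same (ax := true) (by decide +kernel) cert83 cert84

theorem cert85 : Cert C B85 I85 :=
  cert_of_check cfg_ok range_ok check85

theorem node83 : Cert C ⟨39614081257132168796771975168, 4867778304876400901747340308643840, 39614081257132168796771975168, 973555660975280180349468061728768⟩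
    (List.range 219) :=
  split_same (ax := true) (by decide +kernel) node82 cert85

theorem cert86 : Cert C B86 I86 :=
  cert_of_check cfg_ok range_ok check86

theorem node84 : Cert C ⟨79228162514264337593543950336, 4867778304876400901747340308643840, 79228162514264337593543950336, 973555660975280180349468061728768⟩
    (List.range 219) :=
  split_same (ax := true) (by decide +kernel) node83 cert86

theorem cert87 : Cert C B87 I87 :=
  cert_of_check cfg_ok range_ok check87

theorem node85 : Cert C ⟨158456325028528675187087900672, 4867778304876400901747340308643840, 158456325028528675187087900672, 973555660975280180349468061728768⟩
    (List.range 219) :=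
  split_same (ax := true) (by decide +kernel) node84 cert87

theorem cert88 : Cert C B88 I88 :=
  cert_of_check cfg_ok range_ok check88

theorem node86 : Cert C ⟨316912650057057350374175801344, 4867778304876400901747340308643840, 316912650057057350374175801344, 973555660975280180349468061728768⟩
    (List.range 219) :=
  split_same (ax := true) (by decide +kernel) node85 cert88

theorem cert89 : Cert C B89 I89 :=
  cert_of_check cfg_ok range_ok check89

theorem node87 : Cert C ⟨633825300114114700748351602688, 4867778304876400901747340308643840, 633825300114114700748351602688, 973555660975280180349468061728768⟩
    (List.range 219) :=
  split_same (ax := true) (by decide +kernel) node86 cert89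

theorem cert90 : Cert C B90 I90 :=
  cert_of_check cfg_ok range_ok check90

theorem node88 : Cert C ⟨1267650600228229401496703205376, 4867778304876400901747340308643840, 1267650600228229401496703205376, 973555660975280180349468061728768⟩
    (List.range 219) :=
  split_same (ax := true) (by decide +kernel) node87 cert90

theorem cert91 : Cert C B91 I91 :=
  cert_of_check cfg_ok range_ok check91

theorem node89 : Cert C ⟨2535301200456458802993406410752, 4867778304876400901747340308643840, 2535301200456458802993406410752, 973555660975280180349468061728768⟩
    (List.range 219) :=
  split_same (ax := true) (by decide +kernel) node88 cert91

theorem cert92 : Cert C B92 I92 :=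
  cert_of_check cfg_ok range_ok check92

theorem cert93 : Cert C B93 I93 :=
  cert_of_check cfg_ok range_ok check93

theorem node90 : Cert C ⟨77371252455336267181195264, 6814889626826961262446276432101376, 77371252455336267181195264, 973555660975280180349468061728768⟩
    (List.range 219) :=
  split_same (ax := false) (by decide +kernel) cert92 cert93

theorem cert94 : Cert C B94 I94 :=
  cert_of_check cfg_ok range_ok check94

theorem node91 : Cert C ⟨154742504910672534362390528, 6814889626826961262446276432101376, 154742504910672534362390528, 973555660975280180349468061728768⟩
    (List.range 219) :=
  split_same (ax := true) (by decide +kernel) node90 cert94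

theorem cert95 : Cert C B95 I95 :=
  cert_of_check cfg_ok range_ok check95

theorem node92 : Cert C ⟨309485009821345068724781056, 6814889626826961262446276432101376, 309485009821345068724781056, 973555660975280180349468061728768⟩
    (List.range 219) :=
  split_same (ax := true) (by decide +kernel) node91 cert95

theorem cert96 : Cert C B96 I96 :=
  cert_of_check cfg_ok range_ok check96

theorem node93 : Cert C ⟨618970019642690137449562112, 6814889626826961262446276432101376, 618970019642690137449562112, 973555660975280180349468061728768⟩
    (List.range 219) :=
  split_same (ax := true) (by decide +kernel) node92 cert96

theorem cert97 : Cert C B97 I97 :=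
  cert_of_check cfg_ok range_ok check97

theorem node94 : Cert C ⟨1237940039285380274899124224, 6814889626826961262446276432101376, 1237940039285380274899124224, 973555660975280180349468061728768⟩
    (List.range 219) :=
  split_same (ax := true) (by decide +kernel) node93 cert97

theorem cert98 : Cert C B98 I98 :=
  cert_of_check cfg_ok range_ok check98

theorem node95 : Cert C ⟨2475880078570760549798248448, 6814889626826961262446276432101376, 2475880078570760549798248448, 973555660975280180349468061728768⟩
    (List.range 219) :=
  split_same (ax := true) (by decide +kernel) node94 cert98

theorem cert99 : Cert C B99 I99 :=
  cert_of_check cfg_ok range_ok check99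

theorem node96 : Cert C ⟨4951760157141521099596496896, 6814889626826961262446276432101376, 4951760157141521099596496896, 973555660975280180349468061728768⟩
    (List.range 219) :=
  split_same (ax := true) (by decide +kernel) node95 cert99

theorem cert100 : Cert C B100 I100 :=
  cert_of_check cfg_ok range_ok check100

theorem node97 : Cert C ⟨9903520314283042199192993792, 6814889626826961262446276432101376, 9903520314283042199192993792, 973555660975280180349468061728768⟩
    (List.range 219) :=
  split_same (ax := true) (by decide +kernel) node96 cert100

theorem cert101 : Cert C B101 I101 :=
  cert_of_check cfg_ok range_ok check101

theorem node98 : Cert C ⟨19807040628566084398385987584, 6814889626826961262446276432101376, 19807040628566084398385987584, 973555660975280180349468061728768⟩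
    (List.range 219) :=
  split_same (ax := true) (by decide +kernel) node97 cert101

theorem cert102 : Cert C B102 I102 :=
  cert_of_check cfg_ok range_ok check102

theorem node99 : Cert C ⟨39614081257132168796771975168, 6814889626826961262446276432101376, 39614081257132168796771975168, 973555660975280180349468061728768⟩
    (List.range 219) :=
  split_same (ax := true) (by decide +kernel) node98 cert102

theorem cert103 : Cert C B103 I103 :=
  cert_of_check cfg_ok range_ok check103

theorem node100 : Cert C ⟨79228162514264337593543950336, 6814889626826961262446276432101376, 79228162514264337593543950336, 973555660975280180349468061728768⟩
    (List.range 219) :=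
  split_same (ax := true) (by decide +kernel) node99 cert103

theorem cert104 : Cert C B104 I104 :=
  cert_of_check cfg_ok range_ok check104

theorem node101 : Cert C ⟨158456325028528675187087900672, 6814889626826961262446276432101376, 158456325028528675187087900672, 973555660975280180349468061728768⟩
    (List.range 219) :=
  split_same (ax := true) (by decide +kernel) node100 cert104

theorem cert105 : Cert C B105 I105 :=
  cert_of_check cfg_ok range_ok check105

theorem node102 : Cert C ⟨316912650057057350374175801344, 6814889626826961262446276432101376, 316912650057057350374175801344, 973555660975280180349468061728768⟩
    (List.range 219) :=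
  split_same (ax := true) (by decide +kernel) node101 cert105

theorem cert106 : Cert C B106 I106 :=
  cert_of_check cfg_ok range_ok check106

theorem node103 : Cert C ⟨633825300114114700748351602688, 6814889626826961262446276432101376, 633825300114114700748351602688, 973555660975280180349468061728768⟩
    (List.range 219) :=
  split_same (ax := true) (by decide +kernel) node102 cert106

theorem cert107 : Cert C B107 I107 :=
  cert_of_check cfg_ok range_ok check107

theorem node104 : Cert C ⟨1267650600228229401496703205376, 6814889626826961262446276432101376, 1267650600228229401496703205376, 973555660975280180349468061728768⟩
    (List.range 219) :=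
  split_same (ax := true) (by decide +kernel) node103 cert107

theorem cert108 : Cert C B108 I108 :=
  cert_of_check cfg_ok range_ok check108

theorem node105 : Cert C ⟨2535301200456458802993406410752, 6814889626826961262446276432101376, 2535301200456458802993406410752, 973555660975280180349468061728768⟩
    (List.range 219) :=
  split_same (ax := true) (by decide +kernel) node104 cert108

theorem node106 : Cert C ⟨2535301200456458802993406410752, 5841333965851681082096808370372608, 2535301200456458802993406410752, 1947111321950560360698936123457536⟩
    (List.range 219) :=
  split_same (ax := false) (by decide +kernel) node89 node105

theorem node107 : Cert C ⟨2535301200456458802993406410752, 3894222643901120721397872246915072, 2535301200456458802993406410752, 3894222643901120721397872246915072⟩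
    (List.range 219) :=
  split_same (ax := false) (by decide +kernel) node81 node106

theorem cert109 : Cert C B109 I109 :=
  cert_of_check cfg_ok range_ok check109

theorem cert110 : Cert C B110 I110 :=
  cert_of_check cfg_ok range_ok check110

theorem node108 : Cert C ⟨7605903601369376408980219232256, 3894222643901120721397872246915072, 2535301200456458802993406410752, 3894222643901120721397872246915072⟩
    (List.range 219) :=
  split_same (ax := false) (by decide +kernel) cert109 cert110

theorem node109 : Cert C ⟨5070602400912917605986812821504, 3894222643901120721397872246915072, 5070602400912917605986812821504, 3894222643901120721397872246915072⟩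
    (List.range 219) :=
  split_same (ax := true) (by decide +kernel) node107 node108

theorem cert111 : Cert C B111 I111 :=
  cert_of_check cfg_ok range_ok check111

theorem cert112 : Cert C B112 I112 :=
  cert_of_check cfg_ok range_ok check112

theorem cert113 : Cert C B113 I113 :=
  cert_of_check cfg_ok range_ok check113

theorem cert114 : Cert C B114 I114 :=
  cert_of_check cfg_ok range_ok check114

theorem node110 : Cert C ⟨15211807202738752817960438464512, 6814889626826961262446276432101376, 5070602400912917605986812821504, 973555660975280180349468061728768⟩
    (List.range 219) :=
  split_same (ax := true) (by decide +kernel) cert113 cert114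

theorem node111 : Cert C ⟨15211807202738752817960438464512, 5841333965851681082096808370372608, 5070602400912917605986812821504, 1947111321950560360698936123457536⟩
    (List.range 219) :=
  split_same (ax := false) (by decide +kernel) cert112 node110

theorem node112 : Cert C ⟨15211807202738752817960438464512, 3894222643901120721397872246915072, 5070602400912917605986812821504, 3894222643901120721397872246915072⟩
    (List.range 219) :=
  split_same (ax := false) (by decide +kernel) cert111 node111

theorem node113 : Cert C ⟨10141204801825835211973625643008, 3894222643901120721397872246915072, 10141204801825835211973625643008, 3894222643901120721397872246915072⟩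
    (List.range 219) :=
  split_same (ax := true) (by decide +kernel) node109 node112

theorem cert115 : Cert C B115 I115 :=
  cert_of_check cfg_ok range_ok check115

theorem cert116 : Cert C B116 I116 :=
  cert_of_check cfg_ok range_ok check116

theorem cert117 : Cert C B117 I117 :=
  cert_of_check cfg_ok range_ok check117

theorem cert118 : Cert C B118 I118 :=
  cert_of_check cfg_ok range_ok check118

theorem node114 : Cert C ⟨30423614405477505635920876929024, 6814889626826961262446276432101376, 10141204801825835211973625643008, 973555660975280180349468061728768⟩
    (List.range 219) :=
  split_same (ax := true) (by decide +kernel) cert117 cert118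

theorem node115 : Cert C ⟨30423614405477505635920876929024, 5841333965851681082096808370372608, 10141204801825835211973625643008, 1947111321950560360698936123457536⟩
    (List.range 219) :=
  split_same (ax := false) (by decide +kernel) cert116 node114

theorem node116 : Cert C ⟨30423614405477505635920876929024, 3894222643901120721397872246915072, 10141204801825835211973625643008, 3894222643901120721397872246915072⟩
    (List.range 219) :=
  split_same (ax := false) (by decide +kernel) cert115 node115

theorem node117 : Cert C ⟨20282409603651670423947251286016, 3894222643901120721397872246915072, 20282409603651670423947251286016, 3894222643901120721397872246915072⟩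
    (List.range 219) :=
  split_same (ax := true) (by decide +kernel) node113 node116

theorem cert119 : Cert C B119 I119 :=
  cert_of_check cfg_ok range_ok check119

theorem cert120 : Cert C B120 I120 :=
  cert_of_check cfg_ok range_ok check120

theorem cert121 : Cert C B121 I121 :=
  cert_of_check cfg_ok range_ok check121

theorem cert122 : Cert C B122 I122 :=
  cert_of_check cfg_ok range_ok check122

theorem node118 : Cert C ⟨60847228810955011271841753858048, 6814889626826961262446276432101376, 20282409603651670423947251286016, 973555660975280180349468061728768⟩
    (List.range 219) :=
  split_same (ax := true) (by decide +kernel) cert121 cert122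

theorem node119 : Cert C ⟨60847228810955011271841753858048, 5841333965851681082096808370372608, 20282409603651670423947251286016, 1947111321950560360698936123457536⟩
    (List.range 219) :=
  split_same (ax := false) (by decide +kernel) cert120 node118

theorem node120 : Cert C ⟨60847228810955011271841753858048, 3894222643901120721397872246915072, 20282409603651670423947251286016, 3894222643901120721397872246915072⟩
    (List.range 219) :=
  split_same (ax := false) (by decide +kernel) cert119 node119

theorem node121 : Cert C ⟨40564819207303340847894502572032, 3894222643901120721397872246915072, 40564819207303340847894502572032, 3894222643901120721397872246915072⟩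
    (List.range 219) :=
  split_same (ax := true) (by decide +kernel) node117 node120

theorem cert123 : Cert C B123 I123 :=
  cert_of_check cfg_ok range_ok check123

theorem cert124 : Cert C B124 I124 :=
  cert_of_check cfg_ok range_ok check124

theorem cert125 : Cert C B125 I125 :=
  cert_of_check cfg_ok range_ok check125

theorem cert126 : Cert C B126 I126 :=
  cert_of_check cfg_ok range_ok check126

theorem node122 : Cert C ⟨121694457621910022543683507716096, 6814889626826961262446276432101376, 40564819207303340847894502572032, 973555660975280180349468061728768⟩
    (List.range 219) :=
  split_same (ax := true) (by decide +kernel) cert125 cert126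

theorem node123 : Cert C ⟨121694457621910022543683507716096, 5841333965851681082096808370372608, 40564819207303340847894502572032, 1947111321950560360698936123457536⟩
    (List.range 219) :=
  split_same (ax := false) (by decide +kernel) cert124 node122

theorem node124 : Cert C ⟨121694457621910022543683507716096, 3894222643901120721397872246915072, 40564819207303340847894502572032, 3894222643901120721397872246915072⟩
    (List.range 219) :=
  split_same (ax := false) (by decide +kernel) cert123 node123

theorem node125 : Cert C ⟨81129638414606681695789005144064, 3894222643901120721397872246915072, 81129638414606681695789005144064, 3894222643901120721397872246915072⟩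
    (List.range 219) :=
  split_same (ax := true) (by decide +kernel) node121 node124

theorem cert127 : Cert C B127 I127 :=
  cert_of_check cfg_ok range_ok check127

theorem cert128 : Cert C B128 I128 :=
  cert_of_check cfg_ok range_ok check128

theorem cert129 : Cert C B129 I129 :=
  cert_of_check cfg_ok range_ok check129

theorem cert130 : Cert C B130 I130 :=
  cert_of_check cfg_ok range_ok check130

theorem node126 : Cert C ⟨243388915243820045087367015432192, 6814889626826961262446276432101376, 81129638414606681695789005144064, 973555660975280180349468061728768⟩
    (List.range 219) :=
  split_same (ax := true) (by decide +kernel) cert129 cert130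

theorem node127 : Cert C ⟨243388915243820045087367015432192, 5841333965851681082096808370372608, 81129638414606681695789005144064, 1947111321950560360698936123457536⟩
    (List.range 219) :=
  split_same (ax := false) (by decide +kernel) cert128 node126

theorem node128 : Cert C ⟨243388915243820045087367015432192, 3894222643901120721397872246915072, 81129638414606681695789005144064, 3894222643901120721397872246915072⟩
    (List.range 219) :=
  split_same (ax := false) (by decide +kernel) cert127 node127

theorem node129 : Cert C ⟨162259276829213363391578010288128, 3894222643901120721397872246915072, 162259276829213363391578010288128, 3894222643901120721397872246915072⟩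
    (List.range 219) :=
  split_same (ax := true) (by decide +kernel) node125 node128

theorem cert131 : Cert C B131 I131 :=
  cert_of_check cfg_ok range_ok check131

theorem cert132 : Cert C B132 I132 :=
  cert_of_check cfg_ok range_ok check132

theorem cert133 : Cert C B133 I133 :=
  cert_of_check cfg_ok range_ok check133

theorem cert134 : Cert C B134 I134 :=
  cert_of_check cfg_ok range_ok check134

theorem node130 : Cert C ⟨486777830487640090174734030864384, 6814889626826961262446276432101376, 162259276829213363391578010288128, 973555660975280180349468061728768⟩
    (List.range 219) :=
  split_same (ax := true) (by decide +kernel) cert133 cert134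

theorem node131 : Cert C ⟨486777830487640090174734030864384, 5841333965851681082096808370372608, 162259276829213363391578010288128, 1947111321950560360698936123457536⟩
    (List.range 219) :=
  split_same (ax := false) (by decide +kernel) cert132 node130

theorem node132 : Cert C ⟨486777830487640090174734030864384, 3894222643901120721397872246915072, 162259276829213363391578010288128, 3894222643901120721397872246915072⟩
    (List.range 219) :=
  split_same (ax := false) (by decide +kernel) cert131 node131

theorem node133 : Cert C ⟨324518553658426726783156020576256, 3894222643901120721397872246915072, 324518553658426726783156020576256, 3894222643901120721397872246915072⟩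
    (List.range 219) :=
  split_same (ax := true) (by decide +kernel) node129 node132

theorem cert135 : Cert C B135 I135 :=
  cert_of_check cfg_ok range_ok check135

theorem cert136 : Cert C B136 I136 :=
  cert_of_check cfg_ok range_ok check136

theorem node134 : Cert C ⟨973555660975280180349468061728768, 1947111321950560360698936123457536, 324518553658426726783156020576256, 1947111321950560360698936123457536⟩
    (List.range 219) :=
  split_same (ax := false) (by decide +kernel) cert135 cert136

theorem cert137 : Cert C B137 I137 :=
  cert_of_check cfg_ok range_ok check137

theorem cert138 : Cert C B138 I138 :=
  cert_of_check cfg_ok range_ok check138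

theorem node135 : Cert C ⟨973555660975280180349468061728768, 5841333965851681082096808370372608, 324518553658426726783156020576256, 1947111321950560360698936123457536⟩
    (List.range 219) :=
  split_same (ax := false) (by decide +kernel) cert137 cert138

theorem node136 : Cert C ⟨973555660975280180349468061728768, 3894222643901120721397872246915072, 324518553658426726783156020576256, 3894222643901120721397872246915072⟩
    (List.range 219) :=
  split_same (ax := false) (by decide +kernel) node134 node135

theorem node137 : Cert C ⟨649037107316853453566312041152512, 3894222643901120721397872246915072, 649037107316853453566312041152512, 3894222643901120721397872246915072⟩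
    (List.range 219) :=
  split_same (ax := true) (by decide +kernel) node133 node136

theorem cert139 : Cert C B139 I139 :=
  cert_of_check cfg_ok range_ok check139

theorem cert140 : Cert C B140 I140 :=
  cert_of_check cfg_ok range_ok check140

theorem cert141 : Cert C B141 I141 :=
  cert_of_check cfg_ok range_ok check141

theorem node138 : Cert C ⟨1947111321950560360698936123457536, 2920666982925840541048404185186304, 649037107316853453566312041152512, 973555660975280180349468061728768⟩
    (List.range 219) :=
  split_same (ax := false) (by decide +kernel) cert140 cert141

theorem node139 : Cert C ⟨1947111321950560360698936123457536, 1947111321950560360698936123457536, 649037107316853453566312041152512, 1947111321950560360698936123457536⟩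
    (List.range 219) :=
  split_same (ax := false) (by decide +kernel) cert139 node138

theorem cert142 : Cert C B142 I142 :=
  cert_of_check cfg_ok range_ok check142

theorem cert143 : Cert C B143 I143 :=
  cert_of_check cfg_ok range_ok check143

theorem node140 : Cert C ⟨1947111321950560360698936123457536, 4867778304876400901747340308643840, 649037107316853453566312041152512, 973555660975280180349468061728768⟩
    (List.range 219) :=
  split_same (ax := true) (by decide +kernel) cert142 cert143

theorem cert144 : Cert C B144 I144 :=
  cert_of_check cfg_ok range_ok check144

theorem cert145 : Cert C B145 I145 :=
  cert_of_check cfg_ok range_ok check145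

theorem node141 : Cert C ⟨1947111321950560360698936123457536, 6814889626826961262446276432101376, 649037107316853453566312041152512, 973555660975280180349468061728768⟩
    (List.range 219) :=
  split_same (ax := true) (by decide +kernel) cert144 cert145

theorem node142 : Cert C ⟨1947111321950560360698936123457536, 5841333965851681082096808370372608, 649037107316853453566312041152512, 1947111321950560360698936123457536⟩
    (List.range 219) :=
  split_same (ax := false) (by decide +kernel) node140 node141

theorem node143 : Cert C ⟨1947111321950560360698936123457536, 3894222643901120721397872246915072, 649037107316853453566312041152512, 3894222643901120721397872246915072⟩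
    (List.range 219) :=
  split_same (ax := false) (by decide +kernel) node139 node142

theorem node144 : Cert C ⟨1298074214633706907132624082305024, 3894222643901120721397872246915072, 1298074214633706907132624082305024, 3894222643901120721397872246915072⟩
    (List.range 219) :=
  split_same (ax := true) (by decide +kernel) node137 node143

theorem cert146 : Cert C B146 I146 :=
  cert_of_check cfg_ok range_ok check146

theorem cert147 : Cert C B147 I147 :=
  cert_of_check cfg_ok range_ok check147

theorem cert148 : Cert C B148 I148 :=
  cert_of_check cfg_ok range_ok check148

theorem node145 : Cert C ⟨3245185536584267267831560205762560, 2920666982925840541048404185186304, 649037107316853453566312041152512, 973555660975280180349468061728768⟩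
    (List.range 219) :=
  split_same (ax := false) (by decide +kernel) cert147 cert148

theorem cert149 : Cert C B149 I149 :=
  cert_of_check cfg_ok range_ok check149

theorem node146 : Cert C ⟨3894222643901120721397872246915072, 2920666982925840541048404185186304, 1298074214633706907132624082305024, 973555660975280180349468061728768⟩
    (List.range 219) :=
  split_same (ax := true) (by decide +kernel) node145 cert149

theorem node147 : Cert C ⟨3894222643901120721397872246915072, 1947111321950560360698936123457536, 1298074214633706907132624082305024, 1947111321950560360698936123457536⟩
    (List.range 219) :=
  split_same (ax := false) (by decide +kernel) cert146 node146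

theorem cert150 : Cert C B150 I150 :=
  cert_of_check cfg_ok range_ok check150

theorem cert151 : Cert C B151 I151 :=
  cert_of_check cfg_ok range_ok check151

theorem cert152 : Cert C B152 I152 :=
  cert_of_check cfg_ok range_ok check152

theorem node148 : Cert C ⟨3569704090242693994614716226338816, 4381000474388760811572606277779456, 324518553658426726783156020576256, 486777830487640090174734030864384⟩
    (List.range 219) :=
  split_same (ax := false) (by decide +kernel) cert151 cert152

theorem node149 : Cert C ⟨3245185536584267267831560205762560, 4381000474388760811572606277779456, 649037107316853453566312041152512, 486777830487640090174734030864384⟩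
    (List.range 219) :=
  split_same (ax := true) (by decide +kernel) cert150 node148

theorem cert153 : Cert C B153 I153 :=
  cert_of_check cfg_ok range_ok check153

theorem cert154 : Cert C B154 I154 :=
  cert_of_check cfg_ok range_ok check154

theorem cert155 : Cert C B155 I155 :=
  cert_of_check cfg_ok range_ok check155

theorem node150 : Cert C ⟨3569704090242693994614716226338816, 5354556135364040991922074339508224, 324518553658426726783156020576256, 486777830487640090174734030864384⟩
    (List.range 219) :=
  split_same (ax := false) (by decide +kernel) cert154 cert155

theorem node151 : Cert C ⟨3245185536584267267831560205762560, 5354556135364040991922074339508224, 649037107316853453566312041152512, 486777830487640090174734030864384⟩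
    (List.range 219) :=
  split_same (ax := true) (by decide +kernel) cert153 node150

theorem node152 : Cert C ⟨3245185536584267267831560205762560, 4867778304876400901747340308643840, 649037107316853453566312041152512, 973555660975280180349468061728768⟩
    (List.range 219) :=
  split_same (ax := false) (by decide +kernel) node149 node151

theorem cert156 : Cert C B156 I156 :=
  cert_of_check cfg_ok range_ok check156

theorem cert157 : Cert C B157 I157 :=
  cert_of_check cfg_ok range_ok check157

theorem node153 : Cert C ⟨4218741197559547448181028267491328, 4381000474388760811572606277779456, 324518553658426726783156020576256, 486777830487640090174734030864384⟩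
    (List.range 219) :=
  split_same (ax := false) (by decide +kernel) cert156 cert157

theorem cert158 : Cert C B158 I158 :=
  cert_of_check cfg_ok range_ok check158

theorem node154 : Cert C ⟨4543259751217974174964184288067584, 4381000474388760811572606277779456, 649037107316853453566312041152512, 486777830487640090174734030864384⟩
    (List.range 219) :=
  split_same (ax := true) (by decide +kernel) node153 cert158

theorem cert159 : Cert C B159 I159 :=
  cert_of_check cfg_ok range_ok check159

theorem cert160 : Cert C B160 I160 :=
  cert_of_check cfg_ok range_ok check160

theorem node155 : Cert C ⟨4218741197559547448181028267491328, 5354556135364040991922074339508224, 324518553658426726783156020576256, 486777830487640090174734030864384⟩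
    (List.range 219) :=
  split_same (ax := false) (by decide +kernel) cert159 cert160

theorem cert161 : Cert C B161 I161 :=
  cert_of_check cfg_ok range_ok check161

theorem node156 : Cert C ⟨4543259751217974174964184288067584, 5354556135364040991922074339508224, 649037107316853453566312041152512, 486777830487640090174734030864384⟩
    (List.range 219) :=
  split_same (ax := true) (by decide +kernel) node155 cert161

theorem node157 : Cert C ⟨4543259751217974174964184288067584, 4867778304876400901747340308643840, 649037107316853453566312041152512, 973555660975280180349468061728768⟩
    (List.range 219) :=
  split_same (ax := false) (by decide +kernel) node154 node156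

theorem node158 : Cert C ⟨3894222643901120721397872246915072, 4867778304876400901747340308643840, 1298074214633706907132624082305024, 973555660975280180349468061728768⟩
    (List.range 219) :=
  split_same (ax := true) (by decide +kernel) node152 node157

theorem cert162 : Cert C B162 I162 :=
  cert_of_check cfg_ok range_ok check162

theorem cert163 : Cert C B163 I163 :=
  cert_of_check cfg_ok range_ok check163

theorem node159 : Cert C ⟨3245185536584267267831560205762560, 6328111796339321172271542401236992, 649037107316853453566312041152512, 486777830487640090174734030864384⟩
    (List.range 219) :=
  split_same (ax := true) (by decide +kernel) cert162 cert163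

theorem cert164 : Cert C B164 I164 :=
  cert_of_check cfg_ok range_ok check164

theorem node160 : Cert C ⟨3894222643901120721397872246915072, 6328111796339321172271542401236992, 1298074214633706907132624082305024, 486777830487640090174734030864384⟩
    (List.range 219) :=
  split_same (ax := true) (by decide +kernel) node159 cert164

theorem cert165 : Cert C B165 I165 :=
  cert_of_check cfg_ok range_ok check165

theorem node161 : Cert C ⟨3894222643901120721397872246915072, 6814889626826961262446276432101376, 1298074214633706907132624082305024, 973555660975280180349468061728768⟩
    (List.range 219) :=
  split_same (ax := false) (by decide +kernel) node160 cert165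

theorem node162 : Cert C ⟨3894222643901120721397872246915072, 5841333965851681082096808370372608, 1298074214633706907132624082305024, 1947111321950560360698936123457536⟩
    (List.range 219) :=
  split_same (ax := false) (by decide +kernel) node158 node161

theorem node163 : Cert C ⟨3894222643901120721397872246915072, 3894222643901120721397872246915072, 1298074214633706907132624082305024, 3894222643901120721397872246915072⟩
    (List.range 219) :=
  split_same (ax := false) (by decide +kernel) node147 node162

theorem node164 : Cert C ⟨2596148429267413814265248164610048, 3894222643901120721397872246915072, 2596148429267413814265248164610048, 3894222643901120721397872246915072⟩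
    (List.range 219) :=
  split_same (ax := true) (by decide +kernel) node144 node163

theorem nonneg : Nonneg C := nonneg_of_root cfg_ok (by decide +kernel) node164

/-- Nonreconstruction at the Kesten-Stigum bound on this range of parameters. -/
theorem poisson {d lam : ℝ} (h1 : (-9/20) ≤ lam) (h2 : lam ≤ (-43/100)) (hd : d * lam ^ 2 = 1) :
    Tendsto (adv 3 (poissonLaw d) lam) atTop (𝓝 0) :=
  poisson_of_vals nonneg h1 h2 hd

end Vale.Agent.P154.Anti.P450
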