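import Vale.Agent.P154.Anti.Win.P460Cfg
import Vale.Agent.P154.Anti.WindowPair
import Vale.Agent.P154.Anti.SmallX

/-!
# Poisson offspring at the Kesten-Stigum bound for parameters between -23/50 and -9/20

The windows are closed by the exclusion of small limits; the box certificate is an argument.
-/

namespace Vale.Agent.P154.Anti.P460

open Filter Topology Box Vale.Agent.P154.Tree

/-- Nonreconstruction once the integer vectors are nonnegative. -/
theorem poisson_of_vals
    (hT : Nonneg C)
    {d lam : ℝ}
    (h1 : (-23/50) ≤ lam) (h2 : lam ≤ (-9/20)) (hd : d * lam ^ 2 = 1) :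
    Tendsto (adv 3 (poissonLaw d) lam) atTop (𝓝 0) := by
  have hd0 : 0 ≤ d := by nlinarith [sq_nonneg lam]
  refine tendsto_adv_poisson_of_three_nodes (E := E) (r := 5) (a := (-23/50)) (m := (-91/200))
    (b := (-9/20)) (D := (4939/1000)) (x0 := (1/220)) hT basis_ok (by decide) (by decide)
    (by norm_num) checkL checkR (by norm_num) Vale.Agent.P154.Anti.P460.T scalar (fun d' lam' l1 l2 hl => ?_) ?_ ?_ ?_ hd.le
  · push_cast at l1 l2 ⊢
    exact SmallX.smallExcl_poisson_P 5 0 2 3 rfl rfl rfl rfl
      (by norm_num) hl (by linarith) (by linarith)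
  all_goals push_cast
  · exact hd.ge.trans (mul_le_mul_of_nonneg_left (by nlinarith) hd0)
  · exact (mul_le_mul_of_nonneg_left (by nlinarith) hd0).trans hd.le
  · linarith

end Vale.Agent.P154.Anti.P460
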