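import Vale.Agent.P154.Anti.BoxNode

/-!
# Checking a window in pieces

The kernel needs less memory when the check of a window is split into separate statements.
-/

namespace Vale.Agent.P154.Anti

open Box

variable {m : ℕ} {C : Cfg} {E : Fin m → N3} {a b : ℚ}

theorem windowCheck_split : ∀ (n : ℕ) {V : List (SVec m)} {W : List WData},
    windowCheck C E a b (V.take n) (W.take n) = true →
    windowCheck C E a b (V.drop n) (W.drop n) = true → windowCheck C E a b V W = true
  | 0, V, W, _, h => h
  | _ + 1, [], W, _, _ => rfl
  | _ + 1, _ :: _, [], h, _ => by simp [windowCheck] at h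
  | n + 1, v :: vs, w :: ws, h1, h2 => by
    simp only [List.take_succ_cons, List.drop_succ_cons, windowCheck, Bool.and_eq_true] at h1 h2 ⊢
    exact ⟨h1.1, windowCheck_split n h1.2 h2⟩

/-- One piece of a check in pieces. -/
theorem windowCheck_step (i n : ℕ) {V : List (SVec m)} {W : List WData}
    (h1 : windowCheck C E a b ((V.drop i).take n) ((W.drop i).take n) = true)
    (h2 : windowCheck C E a b (V.drop (i + n)) (W.drop (i + n)) = true) :
    windowCheck C E a b (V.drop i) (W.drop i) = true :=
  windowCheck_split n h1 (by rwa [List.drop_drop, List.drop_drop])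

end Vale.Agent.P154.Anti
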