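import Vale.Agent.P154.Anti.WindowPair
import Vale.Agent.P154.Anti.Sliver

/-!
# Two adjacent windows with padded exponents

The node inequalities live on the exponents that carry weight; further exponents of zero weight
are appended for the exclusion of small limits.
-/

namespace Vale.Agent.P154.Anti

open Finset Filter Topology Box Vale.Agent.P154.Tree

variable {n k : ℕ}

/-- Poisson offspring: nonreconstruction below the Kesten-Stigum bound at the mean degrees of two
adjacent windows, with `k` exponents of zero weight appended. -/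
theorem tendsto_adv_poisson_of_three_nodes_pad {C : Cfg} (hT : Nonneg C)
    (hb : basisOk C = true) {E : Fin n → N3} {E' : Fin (n + k) → N3}
    (hpad : ∀ j, expo3 (E' (Fin.castAdd k j)) = expo3 (E j))
    (hE : ∀ j, (E' j).n0 + (E' j).n1 + (E' j).n2 = C.N)
    {r : Fin (n + k)} (hr : 1 ≤ (E' r).n0 ∧ 1 ≤ (E' r).n1) {a m b : ℚ}
    (hn : -(1 / 2) ≤ a ∧ a < m ∧ m < b ∧ b < 0) {V : List (SVec n)} {WL WR : List WData}
    (hL : windowCheck C E a m V WL = true) (hR : windowCheck C E m b V WR = true)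
    {D x0 : ℚ} (hD : 1 ≤ D * b ^ 2) {Ks M : ℕ} (t : STree (n + k))
    (hck : sCheck (genP D Ks M) (V.map (SVec.pad k)) r x0 t (fun _ => 0) (fun _ => D) = true)
    (hsmall : ∀ d lam : ℝ, (a : ℝ) ≤ lam → lam ≤ (b : ℝ) → d * lam ^ 2 = 1 →
      SmallExcl (fun j => expo3 (E' j)) (fun y => 1 - Real.exp (-(d * y))) r x0 lam d)
    {d mu : ℝ} (hd1 : 1 ≤ d * (a : ℝ) ^ 2) (hd2 : d * (b : ℝ) ^ 2 ≤ 1) (hmu : mu ≤ 0)
    (hks : d * mu ^ 2 ≤ 1) : Tendsto (adv 3 (poissonLaw d) mu) atTop (𝓝 0) := by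
  have hN : C.N ≠ 0 := by have := hE r; omega
  have hA := fun j => expo3_simplex hN (hE j)
  have hNpos : (0 : ℝ) < C.N := by exact_mod_cast Nat.pos_of_ne_zero hN
  have hge : ∀ i, 1 ≤ (E' r).fn i → 1 / (C.N : ℝ) ≤ expo3 (E' r) i := fun i hi => by
    rw [expo3_apply (hE r) i]
    exact div_le_div_of_nonneg_right (by exact_mod_cast hi) hNpos.le
  obtain ⟨ha, ham, hmb, hb0⟩ := hn
  have ha' : ((-(1 / 2) : ℚ) : ℝ) ≤ (a : ℝ) := by exact_mod_cast ha
  push_cast at ha'
  have ham' : (a : ℝ) < m := by exact_mod_cast ham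
  have hmb' : (m : ℝ) < b := by exact_mod_cast hmb
  have hb0' : (b : ℝ) < 0 := by exact_mod_cast hb0
  have hdD : d ≤ (D : ℝ) := by
    have h1 : (1 : ℝ) ≤ D * (b : ℝ) ^ 2 := by exact_mod_cast hD
    exact le_of_mul_le_mul_right (hd2.trans h1) (pow_two_pos_of_ne_zero hb0'.ne)
  rcases le_total (d * (m : ℝ) ^ 2) 1 with h | h
  · exact tendsto_adv_poisson_of_window (fun j => (hA j).1) (fun j => (hA j).2)
      (one_div_pos.2 hNpos) (hge 0 hr.1) (hge 1 hr.2) ha' ham' (hmb'.trans hb0')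
      ((windowPW_of_check hT hb E a m V WL hL).pad hpad) t hck
      (fun d' lam l1 l2 hl => hsmall d' lam l1 (l2.trans hmb'.le) hl) hd1 h hdD hmu hks
  · exact tendsto_adv_poisson_of_window (fun j => (hA j).1) (fun j => (hA j).2)
      (one_div_pos.2 hNpos) (hge 0 hr.1) (hge 1 hr.2) (ha'.trans ham'.le) hmb' hb0'
      ((windowPW_of_check hT hb E m b V WR hR).pad hpad) t hck
      (fun d' lam l1 l2 hl => hsmall d' lam (ham'.le.trans l1) l2 hl) h hd2 hdD hmu hks

/-! ## A window dominated from a parameter further left -/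

/-- Poisson offspring: nonreconstruction below the Kesten-Stigum bound on a window, given the
bound of the marked defect at a supercritical point. -/
theorem tendsto_adv_poisson_of_sliver_at {A : Fin n → Fin 3 → ℝ} (hA : ∀ j i, 0 ≤ A j i)
    (hA1 : ∀ j, ∑ i, A j i = 1) {r : Fin n} {m : ℝ} (hm : 0 < m) (hm0 : m ≤ A r 0)
    (hm1 : m ≤ A r 1) {a0 a b : ℝ} (ha0' : -(1 / 2) ≤ a0)
    (ha0a : a0 ≤ a) (ha : -(1 / 2) ≤ a) (hab : a < b) (hb : b < 0)
    {D th1 x0 : ℚ} (hD : 1 ≤ (D : ℝ) * b ^ 2) (hth : th1 ≤ D) {V1 : List (SVec n)}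
    (hN : ∀ v ∈ V1, PW 3 a0 A (fun j => (v.c j : ℝ)) (fun j => (v.b j : ℝ) * (D : ℝ)) (v.k : ℝ))
    {K1 M1 : ℕ} (t1 : STree n)
    (hck1 : sCheck (genP D K1 M1) V1 r th1 t1 (fun _ => 0) (fun _ => D) = true)
    {V : List (SVec n)} (hW : WindowPW A V a b) {Ks M : ℕ} (t : STree n)
    (hck : sCheck (genP D Ks M) V r x0 t (fun _ => 0) (Function.update (fun _ => D) r th1) = true)
    (hsmall : ∀ d lam : ℝ, a ≤ lam → lam ≤ b → d * lam ^ 2 = 1 →
      SmallExcl A (fun y => 1 - Real.exp (-(d * y))) r x0 lam d)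
    {d mu : ℝ} (hd1 : 1 ≤ d * a ^ 2) (hd2 : d * b ^ 2 ≤ 1) (hmu : mu ≤ 0)
    (hks : d * mu ^ 2 ≤ 1) : Tendsto (adv 3 (poissonLaw d) mu) atTop (𝓝 0) := by
  obtain ⟨hl, l1, l2⟩ := crit_mem hab hb hd1 hd2
  set lam := -(1 / Real.sqrt d)
  have hd : 0 ≤ d := by
    by_contra hn
    nlinarith [mul_nonpos_of_nonpos_of_nonneg (le_of_lt (not_le.1 hn)) (sq_nonneg lam)]
  have hb2 : 0 < b ^ 2 := pow_two_pos_of_ne_zero hb.ne
  have hdD : d ≤ (D : ℝ) := le_of_mul_le_mul_right (hd2.trans hD) hb2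
  have hDpos : 0 ≤ (D : ℝ) := hd.trans hdD
  have ha0 : a0 < 0 := ha0a.trans_lt (hab.trans hb)
  have hadma : Adm 3 a0 := adm_three ha0' (by linarith)
  have hadm : Adm 3 lam := adm_three (ha.trans l1) (by linarith)
  -- the limits at the critical and at the supercritical point
  obtain ⟨L, y, hL, hy0, hy1, hy, H⟩ := exists_limit_system (q := 3) (by norm_num)
    (isLaw_poissonLaw hd) hadm (gen_poissonLaw d) (by fun_prop) hA hA1
  obtain ⟨L', y', hL', hy0', hy1', hy', H'⟩ := exists_limit_system (q := 3) (by norm_num)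
    (isLaw_poissonLaw hDpos) hadma (gen_poissonLaw (D : ℝ)) (by fun_prop) hA hA1
  have hth1 := exclude_of_tree (G := genP D K1 M1) (genP_valid D K1 M1) V1 hN t1 hck1
    hDpos le_rfl hL' hy0' hy1' H'
  have hc1 : lam / a0 ≤ 1 := by rw [div_le_one_of_neg ha0]; exact ha0a.trans l1
  have hc0 : 0 ≤ lam / a0 := div_nonneg_of_nonpos (l2.trans hb.le) ha0.le
  have hyr : y r ≤ y' r := le_of_tendsto_of_tendsto' (hy r) (hy' r) fun k => by
    have h := mean_phi_edge_le (hA r) (hA1 r) hadma hd hdD hc0 hc1 k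
    rwa [div_mul_cancel₀ lam ha0.ne] at h
  have hyth : d * y r ≤ (th1 : ℝ) := (mul_le_mul hdD hyr (hy0 r) hDpos).trans hth1
  -- the window below the bound
  have hsc : d * y r ≤ (x0 : ℝ) := by
    refine sCheck_sound (genP_valid D Ks M) (z := fun j => d * y j) (fun v hv => ?_) t _ _ hck
      fun j => ?_
    · refine (H _ _ _ (hW.pw hA hA1 ha hab hb l1 l2 hl v hv)).trans_eq ?_
      simp only [SVec.eval]
      congr 1
      refine sum_congr rfl fun j _ => ?_
      rw [hL j]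
      show _ = _ * (1 - Real.exp (-(d * y j))) + _
      ring
    · rcases eq_or_ne j r with rfl | hj
      · simp only [Function.update_self]
        exact ⟨le_rfl, by simpa using mul_nonneg hd (hy0 j), hyth, hth⟩
      · simp only [Function.update_of_ne hj]
        exact ⟨le_rfl, by simpa using mul_nonneg hd (hy0 j),
          (mul_le_of_le_one_right hd (hy1 j)).trans hdD, le_rfl⟩
  have hzero := hsmall d lam l1 l2 hl L y hL hy0 hy1 hsc H
  have hlim := tendsto_adv_of_limit_zero (isLaw_poissonLaw hd) hadm (hA r) (hA1 r)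
    (fun u u0 u1 => sqDev_le_phi_shrink (hA r) (hA1 r) hm hm0 hm1 (ha.trans l1) l2 hb u0 u1)
    (hzero ▸ hy r)
  refine tendsto_adv_of_abs_le (isLaw_poissonLaw hd) hadm
    (mul_nonneg_of_nonpos_of_nonpos hmu (l2.trans hb.le)) ?_ hlim
  rw [← sq_le_sq]
  nlinarith

/-! ## Pieces of a check at one parameter, and exponents at other positions -/

theorem domCheck_split {C : Cfg} {E : Fin n → N3} {e D : ℚ} : ∀ (i : ℕ) {V : List (SVec n)}
    {W : List WData}, domCheck C E e D (V.take i) (W.take i) = true →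
    domCheck C E e D (V.drop i) (W.drop i) = true → domCheck C E e D V W = true
  | 0, V, W, _, h => h
  | _ + 1, [], W, _, _ => rfl
  | _ + 1, _ :: _, [], h, _ => by simp [domCheck] at h
  | i + 1, v :: vs, w :: ws, h1, h2 => by
    simp only [List.take_succ_cons, List.drop_succ_cons, domCheck, Bool.and_eq_true] at h1 h2 ⊢
    exact ⟨h1.1, domCheck_split i h1.2 h2⟩

/-- One piece of a check in pieces. -/
theorem domCheck_step {C : Cfg} {E : Fin n → N3} {e D : ℚ} (i l : ℕ) {V : List (SVec n)}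
    {W : List WData}
    (h1 : domCheck C E e D ((V.drop i).take l) ((W.drop i).take l) = true)
    (h2 : domCheck C E e D (V.drop (i + l)) (W.drop (i + l)) = true) :
    domCheck C E e D (V.drop i) (W.drop i) = true :=
  domCheck_split l h1 (by rwa [List.drop_drop, List.drop_drop])

/-- A vector moved to other positions. -/
def SVec.emb {J : ℕ} (σ : Fin n → Fin J) (v : SVec n) : SVec J :=
  ⟨fun i => ∑ j, if σ j = i then v.c j else 0, fun i => ∑ j, if σ j = i then v.b j else 0, v.k⟩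

theorem pw_emb {J q : ℕ} {lam : ℝ} {A : Fin n → Fin q → ℝ} {A' : Fin J → Fin q → ℝ}
    (σ : Fin n → Fin J) (hA' : ∀ j, A' (σ j) = A j) {v : SVec n} {D : ℝ}
    (h : PW q lam A (fun j => (v.c j : ℝ)) (fun j => (v.b j : ℝ) * D) v.k) :
    PW q lam A' (fun i => ((v.emb σ).c i : ℝ)) (fun i => ((v.emb σ).b i : ℝ) * D) (v.emb σ).k := by
  intro u u0 u1
  refine (h u u0 u1).trans_eq ?_
  simp only [SVec.emb]
  congr 1
  push_cast
  simp only [Finset.sum_mul, Finset.sum_add_distrib]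
  congr 1 <;> rw [Finset.sum_comm] <;> refine sum_congr rfl fun j _ => ?_ <;>
    simp [apply_ite (fun x : ℚ => (x : ℝ)), ite_mul, hA']

end Vale.Agent.P154.Anti
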