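import Vale.Agent.P154.Anti.Win.T4995ACfg
import Vale.Agent.P154.Anti.Win.Pad
import Vale.Agent.P154.Anti.SmallHalf

/-!
# Poisson offspring at the bound for parameters between -999/2000 and -312/625
-/

namespace Vale.Agent.P154.Anti.T4995A

open Filter Topology Box Vale.Agent.P154.Tree

/-- An exponent of `A` over its denominator. -/
theorem expo3_e9 {j : Fin (6 + 2)} {e : N3} (h : ∀ i : Fin 3, ((E9 j).fn i : ℚ) / (((E9 j).n0 + (E9 j).n1 + (E9 j).n2 : ℕ) : ℚ)
      = (e.fn i : ℚ) / ((e.n0 + e.n1 + e.n2 : ℕ) : ℚ)) : expo3 (E9 j) = expo3 e := by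
  funext i
  rw [expo3_apply rfl i, expo3_apply rfl i]
  have := congrArg (fun x : ℚ => (x : ℝ)) (h i)
  push_cast at this
  simpa using this

/-- Nonreconstruction once the integer vectors are nonnegative. -/
theorem poisson_of_vals (hT : Nonneg C) {d lam : ℝ}
    (h1 : (-999/2000) ≤ lam) (h2 : lam ≤ (-312/625)) (hd : d * lam ^ 2 = 1) :
    Tendsto (adv 3 (poissonLaw d) lam) atTop (𝓝 0) := by
  have hd0 : 0 ≤ d := by nlinarith [sq_nonneg lam]
  refine tendsto_adv_poisson_of_three_nodes_pad (E := E) (E' := E9) (r := 0) (a := (-999/2000)) (m := (-799/1600))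
    (b := (-312/625)) (D := (4013/1000)) (x0 := (1/140)) hT basis_ok (fun j => ?_) (by decide) (by decide)
    (by norm_num) checkL checkR (by norm_num) T scalar (fun d' lam' l1 l2 hl => ?_) ?_ ?_ ?_ hd.le
  · fin_cases j <;> rfl
  · push_cast at l1 l2 ⊢
    exact SmallHalf.smallExcl_poisson_half 0 1 6 7 (expo3_e9 (by decide +kernel))
      (expo3_e9 (by decide +kernel)) (expo3_e9 (by decide +kernel)) (expo3_e9 (by decide +kernel))
      (by norm_num) hl (by linarith) (by linarith)
  all_goals push_cast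
  · exact hd.ge.trans (mul_le_mul_of_nonneg_left (by nlinarith) hd0)
  · exact (mul_le_mul_of_nonneg_left (by nlinarith) hd0).trans hd.le
  · linarith

end Vale.Agent.P154.Anti.T4995A
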