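import Vale.Agent.P154.Anti.Win.T500SData
import Vale.Agent.P154.Anti.Win.T500WData
import Vale.Agent.P154.Anti.Win.Pad

/-!
# Scalar trees of T500
-/

namespace Vale.Agent.P154.Anti.T500

open Box

/-- All exponents. -/
def EA : Fin (6 + 7) → N3 := ![⟨10, 10, 10⟩, ⟨15, 15, 0⟩, ⟨24, 6, 0⟩, ⟨27, 3, 0⟩, ⟨18, 9, 3⟩, ⟨14, 14, 2⟩, ⟨24, 4, 2⟩, ⟨18, 7, 5⟩, ⟨18, 8, 4⟩, ⟨28, 2, 0⟩, ⟨29, 1, 0⟩, ⟨20, 5, 5⟩, ⟨25, 5, 0⟩]

/-- The positions of the exponents of the dominating point. -/
def sig : Fin 7 → Fin (6 + 7) := ![0, 6, 7, 8, 9, 10, 1]

/-- The tree at the dominating point. -/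
def T1 : STree 13 :=
  (.split 0 (21/500)
  .small
  (.split 6 (501/250)
   (.split 6 (501/500)
    (.split 6 (501/1000)
     (.split 6 (1/4)
      (.split 6 (1/8)
       (.split 6 (31/500)
        (.split 6 (31/1000)
         (.split 6 (2/125)
          (.leaf 0 [(217/250), (677/1000), 0, 0, 0, 0, (1/125), (423/500), (843/1000), (247/500), (209/500), 0, 0])
          (.split 0 (41/100)
           (.split 0 (131/1000)
            (.split 0 (37/500)
             (.split 6 (3/125)
              (.split 6 (1/50)
               (.leaf 1 [(7/125), (4/125), 0, 0, 0, 0, (9/500), (13/250), (13/250), (19/1000), (3/200), 0, 0])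
               (.split 0 (7/125)
                (.split 0 (6/125)
                 (.split 6 (11/500)
                  (.split 6 (21/1000)
                   (.leaf 2 [(11/250), (1/40), 0, 0, 0, 0, (1/50), (41/1000), (1/25), (3/200), (3/250), 0, 0])
                   (.leaf 3 [(11/250), (31/1000), 0, 0, 0, 0, (21/1000), (7/200), (17/500), (1/125), (1/250), 0, 0]))
                  (.split 0 (9/200)
                   (.leaf 4 [(43/1000), (33/1000), 0, 0, 0, 0, (23/1000), (37/1000), (9/250), (1/125), (1/250), 0, 0])
                   (.split 6 (23/1000)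
                    (.split 6 (9/400)
                     (.leaf 5 [(9/200), (33/1000), 0, 0, 0, 0, (23/1000), (37/1000), (9/250), (1/125), (1/250), 0, 0])
                     (.split 0 (23/500)
                      (.leaf 4 [(9/200), (33/1000), 0, 0, 0, 0, (23/1000), (37/1000), (9/250), (1/125), (1/250), 0, 0])
                      (.leaf 2 [(23/500), (1/40), 0, 0, 0, 0, (11/500), (41/1000), (1/25), (3/200), (3/250), 0, 0])))
                    (.split 0 (23/500)
                     (.leaf 4 [(9/200), (33/1000), 0, 0, 0, 0, (23/1000), (37/1000), (9/250), (1/125), (1/250), 0, 0])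
                     (.split 6 (47/2000)
                      (.leaf 7 [(23/500), (7/200), 0, 0, 0, 0, (23/1000), (39/1000), (39/1000), (9/1000), (1/200), 0, 0])
                      (.split 0 (47/1000)
                       (.leaf 4 [(9/200), (33/1000), 0, 0, 0, 0, (23/1000), (37/1000), (9/250), (1/125), (1/250), 0, 0])
                       (.leaf 7 [(23/500), (7/200), 0, 0, 0, 0, (23/1000), (39/1000), (39/1000), (9/1000), (1/200), 0, 0])))))))
                 (.leaf 2 [(51/1000), (1/40), 0, 0, 0, 0, (11/500), (41/1000), (1/25), (3/200), (3/250), 0, 0]))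
                (.leaf 2 [(63/1000), (1/40), 0, 0, 0, 0, (11/500), (41/1000), (1/25), (3/200), (3/250), 0, 0])))
              (.split 0 (7/125)
               (.split 6 (7/250)
                (.split 0 (6/125)
                 (.leaf 6 [(11/250), (7/200), 0, 0, 0, 0, (13/500), (39/1000), (39/1000), (9/1000), (1/200), 0, 0])
                 (.split 6 (13/500)
                  (.split 0 (13/250)
                   (.split 6 (1/40)
                    (.leaf 7 [(49/1000), (7/200), 0, 0, 0, 0, (3/125), (39/1000), (39/1000), (9/1000), (1/200), 0, 0])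
                    (.leaf 8 [(49/1000), (9/250), 0, 0, 0, 0, (1/40), (1/25), (1/25), (9/1000), (1/200), 0, 0]))
                   (.leaf 2 [(53/1000), (1/40), 0, 0, 0, 0, (1/40), (41/1000), (1/25), (3/200), (3/250), 0, 0]))
                  (.split 0 (13/250)
                   (.leaf 9 [(49/1000), (19/500), 0, 0, 0, 0, (27/1000), (43/1000), (21/500), (1/100), (1/200), 0, 0])
                   (.leaf 10 [(53/1000), (19/500), 0, 0, 0, 0, (27/1000), (43/1000), (21/500), (1/100), (1/200), 0, 0]))))
                (.leaf 11 [(6/125), (41/1000), 0, 0, 0, 0, (29/1000), (23/500), (9/200), (1/100), (1/200), 0, 0]))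
               (.split 6 (7/250)
                (.leaf 2 [(63/1000), (1/40), 0, 0, 0, 0, (13/500), (41/1000), (1/25), (3/200), (3/250), 0, 0])
                (.split 0 (8/125)
                 (.split 6 (3/100)
                  (.leaf 12 [(29/500), (43/1000), 0, 0, 0, 0, (29/1000), (6/125), (47/1000), (11/1000), (3/500), 0, 0])
                  (.leaf 13 [(29/500), (43/1000), 0, 0, 0, 0, (3/100), (6/125), (6/125), (11/1000), (3/500), 0, 0]))
                 (.leaf 2 [(67/1000), (1/40), 0, 0, 0, 0, (29/1000), (41/1000), (1/25), (3/200), (3/250), 0, 0])))))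
             (.leaf 2 [(97/1000), (1/40), 0, 0, 0, 0, (23/1000), (41/1000), (1/25), (3/200), (3/250), 0, 0]))
            (.leaf 2 [(237/1000), (1/40), 0, 0, 0, 0, (23/1000), (41/1000), (1/25), (3/200), (3/250), 0, 0]))
           (.leaf 2 [(89/100), (1/40), 0, 0, 0, 0, (23/1000), (41/1000), (1/25), (3/200), (3/250), 0, 0])))
         (.split 0 (41/100)
          (.split 0 (131/1000)
           (.split 0 (37/500)
            (.split 6 (23/500)
             (.split 6 (19/500)
              (.split 0 (7/125)
               (.leaf 11 [(6/125), (41/1000), 0, 0, 0, 0, (17/500), (23/500), (9/200), (1/100), (1/200), 0, 0])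
               (.split 6 (17/500)
                (.split 0 (8/125)
                 (.leaf 14 [(29/500), (11/250), 0, 0, 0, 0, (4/125), (1/20), (49/1000), (11/1000), (3/500), 0, 0])
                 (.split 0 (69/1000)
                  (.leaf 15 [(8/125), (23/500), 0, 0, 0, 0, (4/125), (13/250), (51/1000), (3/250), (3/500), 0, 0])
                  (.leaf 2 [(69/1000), (1/40), 0, 0, 0, 0, (4/125), (41/1000), (1/25), (3/200), (3/250), 0, 0])))
                (.split 0 (8/125)
                 (.leaf 16 [(29/500), (33/1000), 0, 0, 0, 0, (7/200), (27/500), (53/1000), (1/50), (2/125), 0, 0])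
                 (.split 6 (9/250)
                  (.split 0 (69/1000)
                   (.leaf 17 [(8/125), (1/20), 0, 0, 0, 0, (17/500), (7/125), (11/200), (13/1000), (7/1000), 0, 0])
                   (.leaf 18 [(69/1000), (49/1000), 0, 0, 0, 0, (17/500), (7/125), (11/200), (13/1000), (7/1000), 0, 0]))
                  (.leaf 19 [(67/1000), (51/1000), 0, 0, 0, 0, (9/250), (29/500), (57/1000), (13/1000), (7/1000), 0, 0])))))
              (.leaf 20 [(7/125), (4/125), 0, 0, 0, 0, (41/1000), (13/250), (13/250), (19/1000), (3/200), 0, 0]))
             (.leaf 20 [(7/125), (4/125), 0, 0, 0, 0, (53/1000), (13/250), (13/250), (19/1000), (3/200), 0, 0]))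
            (.split 6 (23/500)
             (.split 6 (19/500)
              (.split 0 (49/500)
               (.split 6 (17/500)
                (.leaf 2 [(41/500), (1/40), 0, 0, 0, 0, (4/125), (41/1000), (1/25), (3/200), (3/250), 0, 0])
                (.split 0 (17/200)
                 (.leaf 21 [(19/250), (53/1000), 0, 0, 0, 0, (7/200), (3/50), (59/1000), (7/500), (7/1000), 0, 0])
                 (.leaf 2 [(87/1000), (1/40), 0, 0, 0, 0, (7/200), (41/1000), (1/25), (3/200), (3/250), 0, 0])))
               (.leaf 2 [(27/250), (1/40), 0, 0, 0, 0, (17/500), (41/1000), (1/25), (3/200), (3/250), 0, 0]))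
              (.split 0 (49/500)
               (.split 6 (21/500)
                (.split 0 (17/200)
                 (.split 6 (1/25)
                  (.split 0 (79/1000)
                   (.leaf 22 [(37/500), (57/1000), 0, 0, 0, 0, (19/500), (8/125), (63/1000), (3/200), (1/125), 0, 0])
                   (.leaf 23 [(79/1000), (7/125), 0, 0, 0, 0, (19/500), (8/125), (63/1000), (3/200), (1/125), 0, 0]))
                  (.split 0 (79/1000)
                   (.leaf 22 [(37/500), (57/1000), 0, 0, 0, 0, (1/25), (8/125), (63/1000), (3/200), (1/125), 0, 0])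
                   (.leaf 24 [(79/1000), (7/125), 0, 0, 0, 0, (1/25), (8/125), (63/1000), (3/200), (1/125), 0, 0])))
                 (.leaf 2 [(87/1000), (1/40), 0, 0, 0, 0, (39/1000), (41/1000), (1/25), (3/200), (3/250), 0, 0]))
                (.split 0 (17/200)
                 (.leaf 25 [(19/250), (3/50), 0, 0, 0, 0, (43/1000), (69/1000), (17/250), (2/125), (1/125), 0, 0])
                 (.split 0 (91/1000)
                  (.split 6 (11/250)
                   (.leaf 26 [(21/250), (3/50), 0, 0, 0, 0, (21/500), (69/1000), (17/250), (2/125), (1/125), 0, 0])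
                   (.leaf 27 [(21/250), (61/1000), 0, 0, 0, 0, (11/250), (7/100), (69/1000), (2/125), (1/125), 0, 0]))
                  (.leaf 28 [(9/100), (8/125), 0, 0, 0, 0, (43/1000), (73/1000), (9/125), (17/1000), (9/1000), 0, 0]))))
               (.leaf 2 [(27/250), (1/40), 0, 0, 0, 0, (41/1000), (41/1000), (1/25), (3/200), (3/250), 0, 0])))
             (.split 0 (49/500)
              (.split 6 (27/500)
               (.split 0 (17/200)
                (.leaf 25 [(19/250), (3/50), 0, 0, 0, 0, (49/1000), (69/1000), (17/250), (2/125), (1/125), 0, 0])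
                (.split 6 (1/20)
                 (.split 0 (91/1000)
                  (.leaf 29 [(21/250), (13/200), 0, 0, 0, 0, (47/1000), (73/1000), (9/125), (17/1000), (9/1000), 0, 0])
                  (.split 6 (6/125)
                   (.leaf 30 [(9/100), (8/125), 0, 0, 0, 0, (23/500), (73/1000), (9/125), (17/1000), (9/1000), 0, 0])
                   (.leaf 31 [(9/100), (67/1000), 0, 0, 0, 0, (6/125), (19/250), (3/40), (9/500), (9/1000), 0, 0])))
                 (.leaf 29 [(87/1000), (13/200), 0, 0, 0, 0, (51/1000), (73/1000), (9/125), (17/1000), (9/1000), 0, 0])))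
               (.leaf 29 [(41/500), (13/200), 0, 0, 0, 0, (7/125), (73/1000), (9/125), (17/1000), (9/1000), 0, 0]))
              (.split 6 (27/500)
               (.split 0 (113/1000)
                (.split 6 (1/20)
                 (.leaf 32 [(1/10), (69/1000), 0, 0, 0, 0, (47/1000), (79/1000), (39/500), (9/500), (1/100), 0, 0])
                 (.split 0 (21/200)
                  (.split 6 (13/250)
                   (.split 0 (51/500)
                    (.split 6 (51/1000)
                     (.leaf 33 [(97/1000), (69/1000), 0, 0, 0, 0, (1/20), (79/1000), (39/500), (9/500), (1/100), 0, 0])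
                     (.leaf 34 [(19/200), (9/125), 0, 0, 0, 0, (1/20), (41/500), (81/1000), (19/1000), (1/100), 0, 0]))
                    (.leaf 35 [(49/500), (73/1000), 0, 0, 0, 0, (1/20), (21/250), (83/1000), (1/50), (1/100), 0, 0]))
                   (.leaf 34 [(97/1000), (9/125), 0, 0, 0, 0, (13/250), (41/500), (81/1000), (19/1000), (1/100), 0, 0]))
                  (.leaf 35 [(103/1000), (73/1000), 0, 0, 0, 0, (51/1000), (21/250), (83/1000), (1/50), (1/100), 0, 0])))
                (.leaf 2 [(23/200), (1/40), 0, 0, 0, 0, (49/1000), (41/1000), (1/25), (3/200), (3/250), 0, 0]))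
               (.split 0 (113/1000)
                (.split 6 (29/500)
                 (.split 0 (21/200)
                  (.leaf 29 [(97/1000), (13/200), 0, 0, 0, 0, (27/500), (73/1000), (9/125), (17/1000), (9/1000), 0, 0])
                  (.split 6 (7/125)
                   (.split 0 (109/1000)
                    (.leaf 36 [(103/1000), (19/250), 0, 0, 0, 0, (27/500), (43/500), (17/200), (1/50), (1/100), 0, 0])
                    (.split 6 (11/200)
                     (.leaf 38 [(21/200), (39/500), 0, 0, 0, 0, (53/1000), (9/100), (89/1000), (21/1000), (3/250), 0, 0])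
                     (.leaf 36 [(103/1000), (19/250), 0, 0, 0, 0, (27/500), (43/500), (17/200), (1/50), (1/100), 0, 0])))
                   (.split 0 (109/1000)
                    (.leaf 36 [(103/1000), (19/250), 0, 0, 0, 0, (27/500), (43/500), (17/200), (1/50), (1/100), 0, 0])
                    (.split 6 (57/1000)
                     (.leaf 36 [(103/1000), (19/250), 0, 0, 0, 0, (27/500), (43/500), (17/200), (1/50), (1/100), 0, 0])
                     (.split 0 (111/1000)
                      (.leaf 36 [(103/1000), (19/250), 0, 0, 0, 0, (27/500), (43/500), (17/200), (1/50), (1/100), 0, 0])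
                      (.split 6 (23/400)
                       (.leaf 36 [(103/1000), (19/250), 0, 0, 0, 0, (27/500), (43/500), (17/200), (1/50), (1/100), 0, 0])
                       (.split 0 (14/125)
                        (.leaf 36 [(103/1000), (19/250), 0, 0, 0, 0, (27/500), (43/500), (17/200), (1/50), (1/100), 0, 0])
                        (.split 6 (289/5000)
                         (.leaf 36 [(103/1000), (19/250), 0, 0, 0, 0, (27/500), (43/500), (17/200), (1/50), (1/100), 0, 0])
                         (.split 0 (9/80)
                          (.leaf 36 [(103/1000), (19/250), 0, 0, 0, 0, (27/500), (43/500), (17/200), (1/50), (1/100), 0, 0])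
                          (.split 6 (579/10000)
                           (.leaf 36 [(103/1000), (19/250), 0, 0, 0, 0, (27/500), (43/500), (17/200), (1/50), (1/100), 0, 0])
                           (.leaf 37 [(107/1000), (57/1000), 0, 0, 0, 0, (7/125), (93/1000), (23/250), (7/200), (7/250), 0, 0])))))))))))
                 (.leaf 37 [(1/10), (57/1000), 0, 0, 0, 0, (29/500), (93/1000), (23/250), (7/200), (7/250), 0, 0]))
                (.split 6 (29/500)
                 (.leaf 38 [(23/200), (39/500), 0, 0, 0, 0, (27/500), (9/100), (89/1000), (21/1000), (3/250), 0, 0])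
                 (.split 0 (61/500)
                  (.split 6 (3/50)
                   (.leaf 39 [(111/1000), (21/250), 0, 0, 0, 0, (57/1000), (19/200), (93/1000), (11/500), (11/1000), 0, 0])
                   (.leaf 39 [(111/1000), (21/250), 0, 0, 0, 0, (59/1000), (19/200), (93/1000), (11/500), (11/1000), 0, 0]))
                  (.leaf 40 [(119/1000), (17/200), 0, 0, 0, 0, (29/500), (97/1000), (12/125), (23/1000), (3/250), 0, 0]))))))))
           (.leaf 2 [(237/1000), (1/40), 0, 0, 0, 0, (9/200), (41/1000), (1/25), (3/200), (3/250), 0, 0]))
          (.leaf 2 [(89/100), (1/40), 0, 0, 0, 0, (9/200), (41/1000), (1/25), (3/200), (3/250), 0, 0])))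
        (.split 0 (41/100)
         (.split 0 (131/1000)
          (.split 0 (37/500)
           (.leaf 37 [(7/125), (57/1000), 0, 0, 0, 0, (89/1000), (93/1000), (23/250), (7/200), (7/250), 0, 0])
           (.split 6 (47/500)
            (.split 6 (39/500)
             (.split 0 (49/500)
              (.leaf 37 [(41/500), (57/1000), 0, 0, 0, 0, (17/250), (93/1000), (23/250), (7/200), (7/250), 0, 0])
              (.split 6 (7/100)
               (.split 0 (113/1000)
                (.leaf 37 [(1/10), (57/1000), 0, 0, 0, 0, (8/125), (93/1000), (23/250), (7/200), (7/250), 0, 0])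
                (.split 6 (33/500)
                 (.split 0 (61/500)
                  (.leaf 39 [(111/1000), (21/250), 0, 0, 0, 0, (31/500), (19/200), (93/1000), (11/500), (11/1000), 0, 0])
                  (.split 6 (8/125)
                   (.leaf 41 [(119/1000), (21/250), 0, 0, 0, 0, (61/1000), (97/1000), (12/125), (23/1000), (3/250), 0, 0])
                   (.leaf 42 [(119/1000), (87/1000), 0, 0, 0, 0, (63/1000), (1/10), (99/1000), (23/1000), (3/250), 0, 0])))
                 (.leaf 43 [(23/200), (91/1000), 0, 0, 0, 0, (33/500), (13/125), (51/500), (3/125), (13/1000), 0, 0])))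
               (.leaf 43 [(27/250), (91/1000), 0, 0, 0, 0, (71/1000), (13/125), (51/500), (3/125), (13/1000), 0, 0])))
             (.leaf 43 [(97/1000), (91/1000), 0, 0, 0, 0, (41/500), (13/125), (51/500), (3/125), (13/1000), 0, 0]))
            (.leaf 43 [(97/1000), (91/1000), 0, 0, 0, 0, (13/125), (13/125), (51/500), (3/125), (13/1000), 0, 0])))
          (.split 0 (29/125)
           (.split 6 (47/500)
            (.split 6 (39/500)
             (.split 0 (87/500)
              (.split 6 (7/100)
               (.split 0 (151/1000)
                (.split 6 (33/500)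
                 (.leaf 44 [(33/250), (91/1000), 0, 0, 0, 0, (31/500), (103/1000), (51/500), (3/125), (13/1000), 0, 0])
                 (.split 0 (141/1000)
                  (.split 6 (17/250)
                   (.leaf 45 [(127/1000), (9/100), 0, 0, 0, 0, (13/200), (13/125), (51/500), (3/125), (13/1000), 0, 0])
                   (.leaf 46 [(127/1000), (23/250), 0, 0, 0, 0, (67/1000), (53/500), (13/125), (1/40), (13/1000), 0, 0]))
                  (.leaf 2 [(17/125), (1/40), 0, 0, 0, 0, (33/500), (41/1000), (1/25), (3/200), (3/250), 0, 0])))
                (.leaf 2 [(3/20), (1/40), 0, 0, 0, 0, (8/125), (41/1000), (1/25), (3/200), (3/250), 0, 0]))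
               (.split 0 (151/1000)
                (.split 6 (37/500)
                 (.split 0 (141/1000)
                  (.leaf 47 [(127/1000), (97/1000), 0, 0, 0, 0, (69/1000), (111/1000), (11/100), (13/500), (7/500), 0, 0])
                  (.leaf 48 [(17/125), (51/500), 0, 0, 0, 0, (69/1000), (23/200), (57/500), (27/1000), (7/500), 0, 0]))
                 (.leaf 49 [(33/250), (1/10), 0, 0, 0, 0, (73/1000), (23/200), (113/1000), (27/1000), (7/500), 0, 0]))
                (.split 6 (37/500)
                 (.leaf 2 [(3/20), (1/40), 0, 0, 0, 0, (69/1000), (41/1000), (1/25), (3/200), (3/250), 0, 0])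
                 (.split 0 (81/500)
                  (.leaf 50 [(29/200), (103/1000), 0, 0, 0, 0, (73/1000), (119/1000), (117/1000), (7/250), (3/200), 0, 0])
                  (.leaf 2 [(31/200), (1/40), 0, 0, 0, 0, (73/1000), (41/1000), (1/25), (3/200), (3/250), 0, 0])))))
              (.leaf 2 [(23/125), (1/40), 0, 0, 0, 0, (17/250), (41/1000), (1/25), (3/200), (3/250), 0, 0]))
             (.split 0 (87/500)
              (.split 0 (151/1000)
               (.leaf 51 [(33/250), (19/250), 0, 0, 0, 0, (41/500), (61/500), (121/1000), (23/500), (37/1000), 0, 0])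
               (.split 6 (43/500)
                (.split 6 (41/500)
                 (.split 0 (81/500)
                  (.leaf 52 [(29/200), (107/1000), 0, 0, 0, 0, (77/1000), (121/1000), (3/25), (7/250), (3/200), 0, 0])
                  (.leaf 53 [(31/200), (11/100), 0, 0, 0, 0, (77/1000), (63/500), (1/8), (3/100), (2/125), 0, 0]))
                 (.split 0 (81/500)
                  (.leaf 54 [(29/200), (11/100), 0, 0, 0, 0, (81/1000), (63/500), (1/8), (3/100), (2/125), 0, 0])
                  (.split 0 (21/125)
                   (.leaf 55 [(19/125), (109/1000), 0, 0, 0, 0, (81/1000), (127/1000), (1/8), (3/100), (2/125), 0, 0])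
                   (.leaf 56 [(157/1000), (113/1000), 0, 0, 0, 0, (81/1000), (131/1000), (129/1000), (31/1000), (17/1000), 0, 0]))))
                (.leaf 57 [(3/20), (117/1000), 0, 0, 0, 0, (43/500), (27/200), (133/1000), (4/125), (17/1000), 0, 0])))
              (.split 0 (201/1000)
               (.split 6 (43/500)
                (.leaf 2 [(171/1000), (1/40), 0, 0, 0, 0, (79/1000), (41/1000), (1/25), (3/200), (3/250), 0, 0])
                (.split 0 (187/1000)
                 (.split 6 (9/100)
                  (.leaf 58 [(33/200), (29/250), 0, 0, 0, 0, (21/250), (17/125), (67/500), (33/1000), (9/500), 0, 0])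
                  (.leaf 59 [(33/200), (61/500), 0, 0, 0, 0, (11/125), (139/1000), (137/1000), (4/125), (17/1000), 0, 0]))
                 (.leaf 60 [(22/125), (63/500), 0, 0, 0, 0, (43/500), (18/125), (71/500), (17/500), (9/500), 0, 0])))
               (.leaf 2 [(39/200), (1/40), 0, 0, 0, 0, (41/500), (41/1000), (1/25), (3/200), (3/250), 0, 0]))))
            (.split 0 (87/500)
             (.leaf 54 [(141/1000), (11/100), 0, 0, 0, 0, (13/125), (63/500), (1/8), (3/100), (2/125), 0, 0])
             (.split 6 (11/100)
              (.split 0 (201/1000)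
               (.split 6 (51/500)
                (.split 0 (187/1000)
                 (.leaf 61 [(33/200), (1/8), 0, 0, 0, 0, (93/1000), (18/125), (71/500), (17/500), (9/500), 0, 0])
                 (.split 6 (49/500)
                  (.leaf 62 [(22/125), (33/250), 0, 0, 0, 0, (23/250), (3/20), (37/250), (7/200), (19/1000), 0, 0])
                  (.leaf 62 [(22/125), (33/250), 0, 0, 0, 0, (19/200), (3/20), (37/250), (7/200), (19/1000), 0, 0])))
                (.leaf 63 [(171/1000), (133/1000), 0, 0, 0, 0, (101/1000), (31/200), (19/125), (37/1000), (19/1000), 0, 0]))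
               (.split 6 (51/500)
                (.leaf 64 [(39/200), (67/500), 0, 0, 0, 0, (93/1000), (77/500), (19/125), (37/1000), (1/50), 0, 0])
                (.split 0 (27/125)
                 (.split 6 (53/500)
                  (.leaf 65 [(47/250), (71/500), 0, 0, 0, 0, (99/1000), (161/1000), (159/1000), (19/500), (1/50), 0, 0])
                  (.leaf 65 [(47/250), (71/500), 0, 0, 0, 0, (51/500), (161/1000), (159/1000), (19/500), (1/50), 0, 0]))
                 (.leaf 66 [(201/1000), (71/500), 0, 0, 0, 0, (101/1000), (33/200), (163/1000), (1/25), (11/500), 0, 0]))))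
              (.split 0 (201/1000)
               (.leaf 63 [(171/1000), (133/1000), 0, 0, 0, 0, (111/1000), (31/200), (19/125), (37/1000), (19/1000), 0, 0])
               (.split 6 (59/500)
                (.split 0 (27/125)
                 (.leaf 63 [(47/250), (133/1000), 0, 0, 0, 0, (27/250), (31/200), (19/125), (37/1000), (19/1000), 0, 0])
                 (.split 6 (57/500)
                  (.split 0 (28/125)
                   (.leaf 67 [(197/1000), (71/500), 0, 0, 0, 0, (53/500), (33/200), (163/1000), (1/25), (11/500), 0, 0])
                   (.leaf 68 [(51/250), (147/1000), 0, 0, 0, 0, (53/500), (171/1000), (21/125), (41/1000), (11/500), 0, 0]))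
                  (.leaf 69 [(201/1000), (73/500), 0, 0, 0, 0, (11/100), (17/100), (21/125), (41/1000), (11/500), 0, 0])))
                (.leaf 70 [(39/200), (151/1000), 0, 0, 0, 0, (57/500), (22/125), (87/500), (21/500), (23/1000), 0, 0]))))))
           (.split 6 (47/500)
            (.leaf 2 [(11/40), (1/40), 0, 0, 0, 0, (3/40), (41/1000), (1/25), (3/200), (3/250), 0, 0])
            (.split 0 (77/250)
             (.split 6 (11/100)
              (.leaf 2 [(237/1000), (1/40), 0, 0, 0, 0, (97/1000), (41/1000), (1/25), (3/200), (3/250), 0, 0])
              (.split 0 (267/1000)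
               (.split 6 (59/500)
                (.leaf 71 [(221/1000), (151/1000), 0, 0, 0, 0, (27/250), (22/125), (173/1000), (43/1000), (3/125), 0, 0])
                (.split 0 (249/1000)
                 (.split 6 (61/500)
                  (.leaf 72 [(107/500), (31/200), 0, 0, 0, 0, (113/1000), (89/500), (7/40), (21/500), (11/500), 0, 0])
                  (.leaf 73 [(107/500), (31/200), 0, 0, 0, 0, (29/250), (181/1000), (89/500), (11/250), (3/125), 0, 0]))
                 (.leaf 74 [(227/1000), (81/500), 0, 0, 0, 0, (57/500), (187/1000), (23/125), (9/200), (3/125), 0, 0])))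
               (.leaf 2 [(1/4), (1/40), 0, 0, 0, 0, (111/1000), (41/1000), (1/25), (3/200), (3/250), 0, 0])))
             (.leaf 2 [(151/500), (1/40), 0, 0, 0, 0, (13/125), (41/1000), (1/25), (3/200), (3/250), 0, 0])))))
         (.leaf 2 [(89/100), (1/40), 0, 0, 0, 0, (89/1000), (41/1000), (1/25), (3/200), (3/250), 0, 0])))
       (.split 0 (41/100)
        (.split 0 (131/1000)
         (.leaf 70 [(83/1000), (151/1000), 0, 0, 0, 0, (171/1000), (22/125), (87/500), (21/500), (23/1000), 0, 0])
         (.split 0 (29/125)
          (.leaf 70 [(83/500), (151/1000), 0, 0, 0, 0, (171/1000), (22/125), (87/500), (21/500), (23/1000), 0, 0])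
          (.split 6 (47/250)
           (.split 6 (39/250)
            (.split 0 (77/250)
             (.split 6 (7/50)
              (.split 0 (267/1000)
               (.split 6 (33/250)
                (.split 0 (249/1000)
                 (.leaf 75 [(107/500), (161/1000), 0, 0, 0, 0, (121/1000), (47/250), (37/200), (9/200), (3/125), 0, 0])
                 (.split 6 (16/125)
                  (.leaf 76 [(227/1000), (4/25), 0, 0, 0, 0, (119/1000), (47/250), (37/200), (23/500), (1/40), 0, 0])
                  (.leaf 77 [(227/1000), (167/1000), 0, 0, 0, 0, (61/500), (191/1000), (189/1000), (23/500), (3/125), 0, 0])))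
                (.leaf 78 [(221/1000), (21/125), 0, 0, 0, 0, (127/1000), (39/200), (193/1000), (47/1000), (1/40), 0, 0]))
               (.split 6 (33/250)
                (.leaf 2 [(1/4), (1/40), 0, 0, 0, 0, (121/1000), (41/1000), (1/25), (3/200), (3/250), 0, 0])
                (.split 0 (287/1000)
                 (.split 6 (17/125)
                  (.leaf 79 [(121/500), (171/1000), 0, 0, 0, 0, (1/8), (1/5), (197/1000), (49/1000), (27/1000), 0, 0])
                  (.leaf 80 [(121/500), (91/500), 0, 0, 0, 0, (129/1000), (26/125), (41/200), (1/20), (13/500), 0, 0]))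
                 (.leaf 2 [(257/1000), (1/40), 0, 0, 0, 0, (127/1000), (41/1000), (1/25), (3/200), (3/250), 0, 0]))))
              (.split 0 (267/1000)
               (.leaf 78 [(221/1000), (21/125), 0, 0, 0, 0, (69/500), (39/200), (193/1000), (47/1000), (1/40), 0, 0])
               (.split 6 (37/250)
                (.split 0 (287/1000)
                 (.leaf 80 [(121/500), (91/500), 0, 0, 0, 0, (67/500), (26/125), (41/200), (1/20), (13/500), 0, 0])
                 (.leaf 81 [(257/1000), (9/50), 0, 0, 0, 0, (67/500), (213/1000), (211/1000), (53/1000), (29/1000), 0, 0]))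
                (.split 0 (287/1000)
                 (.leaf 82 [(121/500), (91/500), 0, 0, 0, 0, (141/1000), (213/1000), (211/1000), (27/500), (3/100), 0, 0])
                 (.leaf 83 [(257/1000), (191/1000), 0, 0, 0, 0, (141/1000), (109/500), (27/125), (53/1000), (7/250), 0, 0])))))
             (.split 6 (7/50)
              (.leaf 2 [(151/500), (1/40), 0, 0, 0, 0, (31/250), (41/1000), (1/25), (3/200), (3/250), 0, 0])
              (.split 0 (71/200)
               (.leaf 84 [(141/500), (193/1000), 0, 0, 0, 0, (69/500), (113/500), (223/1000), (7/125), (31/1000), 0, 0])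
               (.leaf 2 [(159/500), (1/40), 0, 0, 0, 0, (69/500), (41/1000), (1/25), (3/200), (3/250), 0, 0]))))
            (.split 0 (77/250)
             (.leaf 85 [(237/1000), (193/1000), 0, 0, 0, 0, (79/500), (227/1000), (223/1000), (7/125), (3/100), 0, 0])
             (.split 0 (71/200)
              (.split 6 (43/250)
               (.split 6 (41/250)
                (.split 0 (331/1000)
                 (.split 6 (4/25)
                  (.leaf 86 [(273/1000), (41/200), 0, 0, 0, 0, (73/500), (117/500), (231/1000), (57/1000), (3/100), 0, 0])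
                  (.leaf 86 [(273/1000), (41/200), 0, 0, 0, 0, (3/20), (117/500), (231/1000), (57/1000), (3/100), 0, 0]))
                 (.leaf 87 [(29/100), (87/500), 0, 0, 0, 0, (37/250), (34/125), (269/1000), (109/1000), (11/125), 0, 0]))
                (.split 0 (331/1000)
                 (.leaf 88 [(273/1000), (39/200), 0, 0, 0, 0, (31/200), (233/1000), (23/100), (59/1000), (4/125), 0, 0])
                 (.split 6 (21/125)
                  (.leaf 89 [(29/100), (41/200), 0, 0, 0, 0, (153/1000), (241/1000), (119/500), (3/50), (33/1000), 0, 0])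
                  (.leaf 90 [(29/100), (109/500), 0, 0, 0, 0, (39/250), (249/1000), (123/500), (61/1000), (4/125), 0, 0]))))
               (.split 0 (331/1000)
                (.leaf 85 [(273/1000), (193/1000), 0, 0, 0, 0, (33/200), (227/1000), (223/1000), (7/125), (3/100), 0, 0])
                (.leaf 91 [(29/100), (111/500), 0, 0, 0, 0, (33/200), (51/200), (63/250), (31/500), (33/1000), 0, 0])))
              (.split 6 (43/250)
               (.leaf 87 [(159/500), (87/500), 0, 0, 0, 0, (151/1000), (34/125), (269/1000), (109/1000), (11/125), 0, 0])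
               (.split 0 (191/500)
                (.split 6 (9/50)
                 (.leaf 92 [(77/250), (219/1000), 0, 0, 0, 0, (161/1000), (32/125), (63/250), (8/125), (9/250), 0, 0])
                 (.split 0 (46/125)
                  (.leaf 93 [(303/1000), (107/500), 0, 0, 0, 0, (21/125), (129/500), (51/200), (67/1000), (37/1000), 0, 0])
                  (.leaf 94 [(313/1000), (28/125), 0, 0, 0, 0, (21/125), (33/125), (261/1000), (67/1000), (37/1000), 0, 0])))
                (.leaf 87 [(327/1000), (87/500), 0, 0, 0, 0, (33/200), (34/125), (269/1000), (109/1000), (11/125), 0, 0]))))))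
           (.split 0 (77/250)
            (.leaf 85 [(237/1000), (193/1000), 0, 0, 0, 0, (197/1000), (227/1000), (223/1000), (7/125), (3/100), 0, 0])
            (.split 6 (219/1000)
             (.split 0 (71/200)
              (.leaf 85 [(141/500), (193/1000), 0, 0, 0, 0, (23/125), (227/1000), (223/1000), (7/125), (3/100), 0, 0])
              (.split 6 (51/250)
               (.split 0 (191/500)
                (.leaf 95 [(77/250), (229/1000), 0, 0, 0, 0, (89/500), (273/1000), (269/1000), (7/100), (19/500), 0, 0])
                (.split 6 (49/250)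
                 (.leaf 96 [(327/1000), (231/1000), 0, 0, 0, 0, (7/40), (273/1000), (269/1000), (69/1000), (19/500), 0, 0])
                 (.split 0 (99/250)
                  (.leaf 95 [(161/500), (229/1000), 0, 0, 0, 0, (181/1000), (273/1000), (269/1000), (7/100), (19/500), 0, 0])
                  (.leaf 97 [(83/250), (237/1000), 0, 0, 0, 0, (181/1000), (141/500), (139/500), (73/1000), (41/1000), 0, 0]))))
               (.leaf 98 [(159/500), (29/125), 0, 0, 0, 0, (191/1000), (7/25), (69/250), (73/1000), (1/25), 0, 0])))
             (.leaf 99 [(151/500), (91/500), 0, 0, 0, 0, (209/1000), (141/500), (7/25), (57/500), (91/1000), 0, 0]))))))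
        (.split 0 (641/500)
         (.split 0 (29/40)
          (.split 6 (47/250)
           (.leaf 87 [(433/1000), (87/500), 0, 0, 0, 0, (29/200), (34/125), (269/1000), (109/1000), (11/125), 0, 0])
           (.split 0 (109/200)
            (.split 6 (219/1000)
             (.split 0 (473/1000)
              (.split 6 (51/250)
               (.leaf 100 [(357/1000), (247/1000), 0, 0, 0, 0, (89/500), (36/125), (71/250), (9/125), (19/500), 0, 0])
               (.split 0 (11/25)
                (.split 6 (53/250)
                 (.leaf 101 [(173/500), (13/50), 0, 0, 0, 0, (47/250), (149/500), (147/500), (37/500), (1/25), 0, 0])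
                 (.leaf 102 [(173/500), (259/1000), 0, 0, 0, 0, (97/500), (297/1000), (293/1000), (37/500), (1/25), 0, 0]))
                (.leaf 103 [(367/1000), (261/1000), 0, 0, 0, 0, (191/1000), (61/200), (301/1000), (77/1000), (41/1000), 0, 0])))
              (.leaf 87 [(399/1000), (87/500), 0, 0, 0, 0, (23/125), (34/125), (269/1000), (109/1000), (11/125), 0, 0]))
             (.split 0 (473/1000)
              (.split 6 (117/500)
               (.split 0 (11/25)
                (.leaf 104 [(173/500), (53/200), 0, 0, 0, 0, (203/1000), (153/500), (151/500), (77/1000), (41/1000), 0, 0])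
                (.split 6 (113/500)
                 (.leaf 105 [(367/1000), (137/500), 0, 0, 0, 0, (199/1000), (157/500), (31/100), (79/1000), (21/500), 0, 0])
                 (.leaf 106 [(367/1000), (137/500), 0, 0, 0, 0, (41/200), (157/500), (31/100), (79/1000), (21/500), 0, 0])))
               (.leaf 107 [(357/1000), (34/125), 0, 0, 0, 0, (43/200), (327/1000), (323/1000), (87/1000), (47/1000), 0, 0]))
              (.split 6 (117/500)
               (.leaf 108 [(399/1000), (279/1000), 0, 0, 0, 0, (203/1000), (81/250), (319/1000), (81/1000), (43/1000), 0, 0])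
               (.split 0 (127/250)
                (.split 6 (121/500)
                 (.leaf 109 [(97/250), (137/500), 0, 0, 0, 0, (53/250), (163/500), (321/1000), (43/500), (6/125), 0, 0])
                 (.split 0 (49/100)
                  (.leaf 110 [(191/500), (137/500), 0, 0, 0, 0, (109/500), (163/500), (161/500), (17/200), (47/1000), 0, 0])
                  (.leaf 111 [(393/1000), (141/500), 0, 0, 0, 0, (109/500), (67/200), (331/1000), (11/125), (49/1000), 0, 0])))
                (.leaf 112 [(409/1000), (51/200), 0, 0, 0, 0, (43/200), (77/200), (191/500), (81/500), (131/1000), 0, 0])))))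
            (.leaf 112 [(47/100), (51/200), 0, 0, 0, 0, (197/1000), (77/200), (191/500), (81/500), (131/1000), 0, 0])))
          (.leaf 112 [(633/1000), (51/200), 0, 0, 0, 0, (171/1000), (77/200), (191/500), (81/500), (131/1000), 0, 0]))
         (.leaf 112 [(929/1000), (51/200), 0, 0, 0, 0, (171/1000), (77/200), (191/500), (81/500), (131/1000), 0, 0]))))
      (.split 0 (41/100)
       (.leaf 99 [(101/500), (91/500), 0, 0, 0, 0, (313/1000), (141/500), (7/25), (57/500), (91/1000), 0, 0])
       (.split 0 (641/500)
        (.split 0 (29/40)
         (.split 6 (47/125)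
          (.split 6 (313/1000)
           (.split 0 (109/200)
            (.split 6 (141/500)
             (.split 0 (473/1000)
              (.leaf 107 [(357/1000), (34/125), 0, 0, 0, 0, (117/500), (327/1000), (323/1000), (87/1000), (47/1000), 0, 0])
              (.split 6 (133/500)
               (.split 0 (127/250)
                (.leaf 113 [(97/250), (143/500), 0, 0, 0, 0, (227/1000), (69/200), (341/1000), (19/200), (53/1000), 0, 0])
                (.split 6 (129/500)
                 (.leaf 114 [(409/1000), (29/100), 0, 0, 0, 0, (28/125), (69/200), (17/50), (91/1000), (51/1000), 0, 0])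
                 (.split 0 (263/500)
                  (.leaf 115 [(101/250), (287/1000), 0, 0, 0, 0, (23/100), (347/1000), (171/500), (19/200), (53/1000), 0, 0])
                  (.leaf 116 [(83/200), (149/500), 0, 0, 0, 0, (23/100), (177/500), (349/1000), (93/1000), (51/1000), 0, 0]))))
               (.leaf 117 [(399/1000), (153/500), 0, 0, 0, 0, (6/25), (89/250), (351/1000), (93/1000), (1/20), 0, 0])))
             (.leaf 118 [(19/50), (299/1000), 0, 0, 0, 0, (257/1000), (73/200), (9/25), (99/1000), (11/200), 0, 0]))
            (.split 6 (141/500)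
             (.split 0 (629/1000)
              (.split 6 (133/500)
               (.leaf 112 [(111/250), (51/200), 0, 0, 0, 0, (227/1000), (77/200), (191/500), (81/500), (131/1000), 0, 0])
               (.split 0 (117/200)
                (.split 6 (137/500)
                 (.leaf 119 [(54/125), (77/250), 0, 0, 0, 0, (237/1000), (91/250), (359/1000), (12/125), (53/1000), 0, 0])
                 (.leaf 120 [(54/125), (327/1000), 0, 0, 0, 0, (243/1000), (3/8), (371/1000), (97/1000), (13/250), 0, 0]))
                (.leaf 112 [(91/200), (51/200), 0, 0, 0, 0, (6/25), (77/200), (191/500), (81/500), (131/1000), 0, 0])))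
              (.leaf 112 [(123/250), (51/200), 0, 0, 0, 0, (117/500), (77/200), (191/500), (81/500), (131/1000), 0, 0]))
             (.split 0 (629/1000)
              (.split 6 (149/500)
               (.split 0 (117/200)
                (.leaf 120 [(54/125), (327/1000), 0, 0, 0, 0, (63/250), (3/8), (371/1000), (97/1000), (13/250), 0, 0])
                (.leaf 121 [(91/200), (323/1000), 0, 0, 0, 0, (63/250), (77/200), (19/50), (13/125), (29/500), 0, 0]))
               (.split 0 (117/200)
                (.leaf 122 [(54/125), (157/500), 0, 0, 0, 0, (263/1000), (189/500), (373/1000), (53/500), (61/1000), 0, 0])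
                (.split 6 (153/500)
                 (.leaf 123 [(91/200), (341/1000), 0, 0, 0, 0, (261/1000), (49/125), (387/1000), (103/1000), (11/200), 0, 0])
                 (.leaf 124 [(91/200), (44/125), 0, 0, 0, 0, (133/500), (203/500), (401/1000), (27/250), (59/1000), 0, 0]))))
              (.leaf 125 [(123/250), (69/200), 0, 0, 0, 0, (257/1000), (203/500), (2/5), (27/250), (59/1000), 0, 0]))))
           (.split 0 (109/200)
            (.leaf 118 [(19/50), (299/1000), 0, 0, 0, 0, (291/1000), (73/200), (9/25), (99/1000), (11/200), 0, 0])
            (.split 0 (629/1000)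
             (.leaf 126 [(111/250), (337/1000), 0, 0, 0, 0, (291/1000), (103/250), (203/500), (117/1000), (33/500), 0, 0])
             (.split 6 (43/125)
              (.split 0 (27/40)
               (.split 6 (41/125)
                (.split 0 (163/250)
                 (.leaf 127 [(473/1000), (339/1000), 0, 0, 0, 0, (137/500), (41/100), (101/250), (23/200), (33/500), 0, 0])
                 (.leaf 128 [(97/200), (353/1000), 0, 0, 0, 0, (137/500), (209/500), (103/250), (113/1000), (63/1000), 0, 0]))
                (.leaf 129 [(479/1000), (371/1000), 0, 0, 0, 0, (57/200), (107/250), (423/1000), (23/200), (63/1000), 0, 0]))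
               (.leaf 130 [(503/1000), (361/1000), 0, 0, 0, 0, (7/25), (43/100), (53/125), (119/1000), (17/250), 0, 0]))
              (.split 0 (27/40)
               (.leaf 129 [(479/1000), (371/1000), 0, 0, 0, 0, (151/500), (107/250), (423/1000), (23/200), (63/1000), 0, 0])
               (.split 6 (9/25)
                (.split 0 (7/10)
                 (.leaf 131 [(497/1000), (9/25), 0, 0, 0, 0, (297/1000), (43/100), (53/125), (119/1000), (33/500), 0, 0])
                 (.leaf 132 [(51/100), (37/100), 0, 0, 0, 0, (297/1000), (11/25), (217/500), (121/1000), (67/1000), 0, 0]))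
                (.leaf 133 [(503/1000), (49/125), 0, 0, 0, 0, (77/250), (451/1000), (223/500), (123/1000), (67/1000), 0, 0])))))))
          (.leaf 134 [(433/1000), (179/500), 0, 0, 0, 0, (71/200), (447/1000), (11/25), (33/250), (77/1000), 0, 0]))
         (.split 6 (47/125)
          (.split 6 (313/1000)
           (.leaf 112 [(633/1000), (51/200), 0, 0, 0, 0, (49/200), (77/200), (191/500), (81/500), (131/1000), 0, 0])
           (.split 0 (241/250)
            (.split 0 (209/250)
             (.split 6 (43/125)
              (.leaf 112 [(271/500), (51/200), 0, 0, 0, 0, (7/25), (77/200), (191/500), (81/500), (131/1000), 0, 0])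
              (.split 0 (779/1000)
               (.split 6 (9/25)
                (.leaf 135 [(529/1000), (77/200), 0, 0, 0, 0, (297/1000), (9/20), (111/250), (61/500), (33/500), 0, 0])
                (.split 0 (94/125)
                 (.leaf 136 [(261/500), (189/500), 0, 0, 0, 0, (77/250), (91/200), (449/1000), (13/100), (37/500), 0, 0])
                 (.leaf 137 [(107/200), (79/200), 0, 0, 0, 0, (77/250), (463/1000), (457/1000), (16/125), (71/1000), 0, 0])))
               (.leaf 135 [(277/500), (77/200), 0, 0, 0, 0, (151/500), (9/20), (111/250), (61/500), (33/500), 0, 0])))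
             (.leaf 112 [(593/1000), (51/200), 0, 0, 0, 0, (291/1000), (77/200), (191/500), (81/500), (131/1000), 0, 0]))
            (.leaf 112 [(27/40), (51/200), 0, 0, 0, 0, (291/1000), (77/200), (191/500), (81/500), (131/1000), 0, 0])))
          (.split 0 (241/250)
           (.split 6 (219/500)
            (.split 0 (209/250)
             (.split 6 (407/1000)
              (.split 0 (779/1000)
               (.leaf 138 [(529/1000), (393/1000), 0, 0, 0, 0, (81/250), (93/200), (459/1000), (16/125), (69/1000), 0, 0])
               (.split 6 (49/125)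
                (.leaf 139 [(277/500), (411/1000), 0, 0, 0, 0, (319/1000), (12/25), (237/500), (33/250), (9/125), 0, 0])
                (.split 0 (807/1000)
                 (.leaf 140 [(137/250), (397/1000), 0, 0, 0, 0, (329/1000), (12/25), (473/1000), (7/50), (79/1000), 0, 0])
                 (.leaf 141 [(14/25), (423/1000), 0, 0, 0, 0, (329/1000), (493/1000), (487/1000), (137/1000), (37/500), 0, 0]))))
              (.leaf 142 [(271/500), (83/200), 0, 0, 0, 0, (69/200), (487/1000), (481/1000), (139/1000), (19/250), 0, 0]))
             (.split 6 (407/1000)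
              (.leaf 112 [(593/1000), (51/200), 0, 0, 0, 0, (81/250), (77/200), (191/500), (81/500), (131/1000), 0, 0])
              (.split 0 (449/500)
               (.split 6 (211/500)
                (.leaf 143 [(29/50), (53/125), 0, 0, 0, 0, (339/1000), (1/2), (247/500), (18/125), (81/1000), 0, 0])
                (.leaf 144 [(29/50), (54/125), 0, 0, 0, 0, (349/1000), (103/200), (127/250), (147/1000), (81/1000), 0, 0]))
               (.leaf 112 [(303/500), (51/200), 0, 0, 0, 0, (69/200), (77/200), (191/500), (81/500), (131/1000), 0, 0]))))
            (.split 0 (209/250)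
             (.leaf 145 [(271/500), (207/500), 0, 0, 0, 0, (3/8), (251/500), (99/200), (151/1000), (43/500), 0, 0])
             (.split 6 (47/100)
              (.split 0 (449/500)
               (.leaf 146 [(29/50), (113/250), 0, 0, 0, 0, (73/200), (263/500), (519/1000), (153/1000), (17/200), 0, 0])
               (.leaf 147 [(303/500), (437/1000), 0, 0, 0, 0, (73/200), (529/1000), (261/500), (4/25), (91/1000), 0, 0]))
              (.leaf 148 [(593/1000), (91/200), 0, 0, 0, 0, (77/200), (27/50), (533/1000), (157/1000), (87/1000), 0, 0]))))
           (.split 6 (219/500)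
            (.leaf 112 [(27/40), (51/200), 0, 0, 0, 0, (167/500), (77/200), (191/500), (81/500), (131/1000), 0, 0])
            (.split 0 (139/125)
             (.split 6 (47/100)
              (.leaf 112 [(323/500), (51/200), 0, 0, 0, 0, (73/200), (77/200), (191/500), (81/500), (131/1000), 0, 0])
              (.leaf 149 [(323/500), (493/1000), 0, 0, 0, 0, (77/200), (283/500), (14/25), (83/500), (23/250), 0, 0]))
             (.leaf 112 [(349/500), (51/200), 0, 0, 0, 0, (3/8), (77/200), (191/500), (81/500), (131/1000), 0, 0]))))))
        (.leaf 112 [(929/1000), (51/200), 0, 0, 0, 0, (313/1000), (77/200), (191/500), (81/500), (131/1000), 0, 0]))))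
     (.split 0 (41/100)
      (.leaf 150 [(101/500), (119/1000), 0, 0, 0, 0, (66/125), (189/1000), (187/1000), (73/1000), (59/1000), 0, 0])
      (.split 0 (641/500)
       (.split 0 (29/40)
        (.leaf 151 [(433/1000), (34/125), 0, 0, 0, 0, (66/125), (51/125), (81/200), (87/500), (141/1000), 0, 0])
        (.split 6 (94/125)
         (.split 6 (313/500)
          (.split 0 (241/250)
           (.leaf 152 [(57/100), (23/50), 0, 0, 0, 0, (431/1000), (553/1000), (273/500), (17/100), (99/1000), 0, 0])
           (.split 6 (141/250)
            (.split 0 (139/125)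
             (.split 6 (133/250)
              (.split 0 (207/200)
               (.leaf 153 [(79/125), (499/1000), 0, 0, 0, 0, (403/1000), (72/125), (569/1000), (173/1000), (49/500), 0, 0])
               (.leaf 154 [(329/500), (97/200), 0, 0, 0, 0, (403/1000), (72/125), (71/125), (173/1000), (12/125), 0, 0]))
              (.split 0 (207/200)
               (.leaf 153 [(79/125), (499/1000), 0, 0, 0, 0, (211/500), (72/125), (569/1000), (173/1000), (49/500), 0, 0])
               (.leaf 155 [(329/500), (523/1000), 0, 0, 0, 0, (211/500), (301/500), (119/200), (93/500), (107/1000), 0, 0])))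
             (.leaf 156 [(349/500), (513/1000), 0, 0, 0, 0, (413/1000), (301/500), (297/500), (183/1000), (101/1000), 0, 0]))
            (.split 0 (139/125)
             (.leaf 157 [(323/500), (243/500), 0, 0, 0, 0, (56/125), (59/100), (583/1000), (191/1000), (11/100), 0, 0])
             (.leaf 158 [(349/500), (129/250), 0, 0, 0, 0, (56/125), (31/50), (613/1000), (209/1000), (33/250), 0, 0]))))
          (.split 0 (241/250)
           (.leaf 159 [(57/100), (47/125), 0, 0, 0, 0, (249/500), (271/500), (269/500), (247/1000), (101/500), 0, 0])
           (.split 0 (139/125)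
            (.leaf 160 [(323/500), (251/500), 0, 0, 0, 0, (249/500), (307/500), (607/1000), (107/500), (127/1000), 0, 0])
            (.leaf 161 [(349/500), (527/1000), 0, 0, 0, 0, (249/500), (631/1000), (623/1000), (209/1000), (123/1000), 0, 0]))))
         (.leaf 162 [(633/1000), (137/250), 0, 0, 0, 0, (73/125), (67/100), (663/1000), (257/1000), (171/1000), 0, 0])))
       (.split 0 (2267/1000)
        (.split 6 (94/125)
         (.split 6 (313/500)
          (.leaf 163 [(83/100), (629/1000), 0, 0, 0, 0, (431/1000), (403/500), (401/500), (449/1000), (377/1000), 0, 0])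
          (.split 0 (341/200)
           (.split 0 (739/500)
            (.leaf 164 [(187/250), (567/1000), 0, 0, 0, 0, (249/500), (133/200), (657/1000), (43/200), (3/25), 0, 0])
            (.leaf 165 [(199/250), (589/1000), 0, 0, 0, 0, (249/500), (77/100), (383/500), (207/500), (173/500), 0, 0]))
           (.leaf 163 [(863/1000), (629/1000), 0, 0, 0, 0, (249/500), (403/500), (401/500), (449/1000), (377/1000), 0, 0])))
         (.split 0 (341/200)
          (.leaf 166 [(31/40), (611/1000), 0, 0, 0, 0, (73/125), (71/100), (703/1000), (6/25), (27/200), 0, 0])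
          (.leaf 167 [(863/1000), (67/100), 0, 0, 0, 0, (73/125), (841/1000), (837/1000), (487/1000), (103/250), 0, 0])))
        (.leaf 163 [(957/1000), (629/1000), 0, 0, 0, 0, (66/125), (403/500), (401/500), (449/1000), (377/1000), 0, 0])))))
    (.split 0 (41/100)
     (.leaf 150 [(101/500), (119/1000), 0, 0, 0, 0, (389/500), (189/1000), (187/1000), (73/1000), (59/1000), 0, 0])
     (.split 0 (641/500)
      (.leaf 168 [(571/1000), (127/250), 0, 0, 0, 0, (389/500), (87/125), (173/250), (369/1000), (333/1000), 0, 0])
      (.split 0 (2267/1000)
       (.split 6 (1503/1000)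
        (.split 6 (313/250)
         (.split 0 (341/200)
          (.leaf 169 [(31/40), (283/500), 0, 0, 0, 0, (169/250), (749/1000), (93/125), (79/200), (329/1000), 0, 0])
          (.leaf 167 [(863/1000), (67/100), 0, 0, 0, 0, (169/250), (841/1000), (837/1000), (487/1000), (103/250), 0, 0]))
         (.leaf 170 [(83/100), (629/1000), 0, 0, 0, 0, (187/250), (403/500), (401/500), (449/1000), (377/1000), 0, 0]))
        (.leaf 170 [(83/100), (629/1000), 0, 0, 0, 0, (827/1000), (403/500), (401/500), (449/1000), (377/1000), 0, 0]))
       (.leaf 171 [(957/1000), (69/100), 0, 0, 0, 0, (389/500), (111/125), (443/500), (77/125), (147/250), 0, 0])))))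
   (.leaf 172 [(217/250), (677/1000), 0, 0, 0, 0, (951/1000), (423/500), (843/1000), (247/500), (209/500), 0, 0])))

/-- The tree of the windows. -/
def T : STree 13 :=
  (.split 0 (1/140)
  .small
  (.split 2 (401/200)
   (.split 2 (501/500)
    (.split 2 (501/1000)
     (.split 2 (1/4)
      (.split 2 (1/8)
       (.split 2 (31/500)
        (.split 2 (31/1000)
         (.split 2 (2/125)
          (.split 2 (1/125)
           (.split 2 (1/250)
            (.split 2 (1/500)
             (.leaf 0 [(3/125), (7/500), (1/1000), (1/125), (1/50), (1/50), 0, 0, 0, 0, 0, 0, 0])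
             (.split 0 (17/1000)
              (.split 2 (3/1000)
               (.leaf 1 [(3/250), (7/1000), (1/500), (1/250), (1/100), (1/100), 0, 0, 0, 0, 0, 0, 0])
               (.split 0 (11/1000)
                (.split 0 (9/1000)
                 (.leaf 2 [(1/125), (3/500), (3/1000), (1/500), (7/1000), (7/1000), 0, 0, 0, 0, 0, 0, 0])
                 (.leaf 3 [(1/100), (3/500), (3/1000), (3/1000), (1/125), (1/125), 0, 0, 0, 0, 0, 0, 0]))
                (.leaf 3 [(7/500), (3/500), (3/1000), (3/1000), (1/125), (1/125), 0, 0, 0, 0, 0, 0, 0])))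
              (.leaf 3 [(29/1000), (3/500), (3/1000), (3/1000), (1/125), (1/125), 0, 0, 0, 0, 0, 0, 0])))
            (.split 0 (17/1000)
             (.split 2 (3/500)
              (.split 0 (11/1000)
               (.split 2 (1/200)
                (.split 0 (9/1000)
                 (.leaf 2 [(1/125), (3/500), (1/250), (1/500), (7/1000), (7/1000), 0, 0, 0, 0, 0, 0, 0])
                 (.leaf 4 [(1/100), (7/1000), (1/250), (3/1000), (1/125), (1/125), 0, 0, 0, 0, 0, 0, 0]))
                (.split 0 (9/1000)
                 (.leaf 2 [(1/125), (3/500), (1/200), (1/500), (7/1000), (7/1000), 0, 0, 0, 0, 0, 0, 0])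
                 (.leaf 5 [(1/100), (1/125), (1/200), (3/1000), (9/1000), (9/1000), 0, 0, 0, 0, 0, 0, 0])))
               (.split 2 (1/200)
                (.leaf 3 [(7/500), (3/500), (1/250), (3/1000), (1/125), (1/125), 0, 0, 0, 0, 0, 0, 0])
                (.split 0 (7/500)
                 (.split 2 (11/2000)
                  (.leaf 6 [(3/250), (1/125), (1/200), (3/1000), (9/1000), (9/1000), 0, 0, 0, 0, 0, 0, 0])
                  (.split 0 (3/250)
                   (.leaf 7 [(11/1000), (9/1000), (3/500), (3/1000), (1/100), (1/100), 0, 0, 0, 0, 0, 0, 0])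
                   (.leaf 8 [(13/1000), (9/1000), (3/500), (3/1000), (1/100), (1/100), 0, 0, 0, 0, 0, 0, 0])))
                 (.leaf 3 [(3/200), (3/500), (1/200), (3/1000), (1/125), (1/125), 0, 0, 0, 0, 0, 0, 0]))))
              (.split 0 (11/1000)
               (.leaf 9 [(9/1000), (1/200), (7/1000), (3/1000), (1/125), (7/1000), 0, 0, 0, 0, 0, 0, 0])
               (.split 0 (7/500)
                (.split 2 (7/1000)
                 (.split 0 (3/250)
                  (.leaf 7 [(11/1000), (9/1000), (3/500), (3/1000), (1/100), (1/100), 0, 0, 0, 0, 0, 0, 0])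
                  (.leaf 10 [(13/1000), (1/100), (3/500), (1/250), (11/1000), (3/250), 0, 0, 0, 0, 0, 0, 0]))
                 (.leaf 11 [(3/250), (7/1000), (7/1000), (1/250), (1/100), (1/100), 0, 0, 0, 0, 0, 0, 0]))
                (.split 2 (7/1000)
                 (.leaf 12 [(3/200), (11/1000), (3/500), (1/250), (3/250), (3/250), 0, 0, 0, 0, 0, 0, 0])
                 (.split 0 (3/200)
                  (.leaf 13 [(7/500), (11/1000), (7/1000), (1/250), (3/250), (13/1000), 0, 0, 0, 0, 0, 0, 0])
                  (.leaf 14 [(2/125), (3/250), (7/1000), (1/250), (13/1000), (7/500), 0, 0, 0, 0, 0, 0, 0]))))))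
             (.leaf 15 [(29/1000), (17/1000), (3/500), (9/1000), (3/125), (3/125), 0, 0, 0, 0, 0, 0, 0])))
           (.split 0 (17/1000)
            (.leaf 16 [(3/250), (13/1000), (3/250), (1/200), (7/500), (7/500), 0, 0, 0, 0, 0, 0, 0])
            (.split 2 (3/250)
             (.split 0 (27/1000)
              (.split 2 (1/100)
               (.split 0 (21/1000)
                (.leaf 17 [(19/1000), (7/500), (9/1000), (1/200), (3/200), (2/125), 0, 0, 0, 0, 0, 0, 0])
                (.leaf 18 [(3/125), (7/500), (9/1000), (1/125), (1/50), (19/1000), 0, 0, 0, 0, 0, 0, 0]))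
               (.split 0 (21/1000)
                (.leaf 17 [(19/1000), (7/500), (11/1000), (1/200), (3/200), (2/125), 0, 0, 0, 0, 0, 0, 0])
                (.split 2 (11/1000)
                 (.split 0 (3/125)
                  (.leaf 19 [(11/500), (17/1000), (1/100), (3/500), (9/500), (19/1000), 0, 0, 0, 0, 0, 0, 0])
                  (.leaf 18 [(1/40), (7/500), (1/100), (1/125), (1/50), (19/1000), 0, 0, 0, 0, 0, 0, 0]))
                 (.split 0 (3/125)
                  (.leaf 19 [(11/500), (17/1000), (11/1000), (3/500), (9/500), (19/1000), 0, 0, 0, 0, 0, 0, 0])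
                  (.leaf 20 [(1/40), (19/1000), (11/1000), (7/1000), (1/50), (21/1000), 0, 0, 0, 0, 0, 0, 0])))))
              (.leaf 18 [(17/500), (7/500), (1/100), (1/125), (1/50), (19/1000), 0, 0, 0, 0, 0, 0, 0]))
             (.split 0 (27/1000)
              (.split 0 (21/1000)
               (.leaf 17 [(19/1000), (7/500), (7/500), (1/200), (3/200), (2/125), 0, 0, 0, 0, 0, 0, 0])
               (.split 2 (7/500)
                (.split 0 (3/125)
                 (.leaf 19 [(11/500), (17/1000), (13/1000), (3/500), (9/500), (19/1000), 0, 0, 0, 0, 0, 0, 0])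
                 (.leaf 20 [(1/40), (19/1000), (13/1000), (7/1000), (1/50), (21/1000), 0, 0, 0, 0, 0, 0, 0]))
                (.leaf 11 [(3/125), (7/1000), (3/200), (1/250), (1/100), (1/100), 0, 0, 0, 0, 0, 0, 0])))
              (.split 0 (17/500)
               (.split 2 (7/500)
                (.split 0 (3/100)
                 (.leaf 21 [(7/250), (1/50), (13/1000), (7/1000), (11/500), (11/500), 0, 0, 0, 0, 0, 0, 0])
                 (.leaf 18 [(31/1000), (7/500), (13/1000), (1/125), (1/50), (19/1000), 0, 0, 0, 0, 0, 0, 0]))
                (.split 0 (3/100)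
                 (.leaf 22 [(7/250), (11/500), (3/200), (1/125), (3/125), (1/40), 0, 0, 0, 0, 0, 0, 0])
                 (.split 2 (3/200)
                  (.leaf 23 [(31/1000), (23/1000), (7/500), (1/125), (1/40), (13/500), 0, 0, 0, 0, 0, 0, 0])
                  (.leaf 24 [(31/1000), (23/1000), (3/200), (1/125), (1/40), (13/500), 0, 0, 0, 0, 0, 0, 0]))))
               (.leaf 18 [(37/1000), (7/500), (7/500), (1/125), (1/50), (19/1000), 0, 0, 0, 0, 0, 0, 0]))))))
          (.split 0 (17/1000)
           (.leaf 16 [(3/250), (13/1000), (23/1000), (1/200), (7/500), (7/500), 0, 0, 0, 0, 0, 0, 0])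
           (.split 2 (3/125)
            (.split 0 (27/1000)
             (.leaf 11 [(11/500), (7/1000), (1/50), (1/250), (1/100), (1/100), 0, 0, 0, 0, 0, 0, 0])
             (.split 2 (1/50)
              (.split 0 (17/500)
               (.leaf 25 [(3/100), (1/40), (9/500), (9/1000), (27/1000), (7/250), 0, 0, 0, 0, 0, 0, 0])
               (.split 2 (9/500)
                (.split 0 (19/500)
                 (.leaf 26 [(7/200), (13/500), (17/1000), (9/1000), (7/250), (29/1000), 0, 0, 0, 0, 0, 0, 0])
                 (.leaf 18 [(39/1000), (7/500), (17/1000), (1/125), (1/50), (19/1000), 0, 0, 0, 0, 0, 0, 0]))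
                (.split 0 (19/500)
                 (.leaf 27 [(7/200), (7/250), (19/1000), (1/100), (3/100), (31/1000), 0, 0, 0, 0, 0, 0, 0])
                 (.leaf 28 [(39/1000), (29/1000), (19/1000), (11/1000), (4/125), (33/1000), 0, 0, 0, 0, 0, 0, 0]))))
              (.leaf 29 [(17/500), (31/1000), (11/500), (11/1000), (33/1000), (7/200), 0, 0, 0, 0, 0, 0, 0])))
            (.leaf 11 [(29/1000), (7/1000), (27/1000), (1/250), (1/100), (1/100), 0, 0, 0, 0, 0, 0, 0]))))
         (.leaf 11 [(3/125), (7/1000), (9/200), (1/250), (1/100), (1/100), 0, 0, 0, 0, 0, 0, 0]))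
        (.leaf 29 [(3/125), (31/1000), (89/1000), (11/1000), (33/1000), (7/200), 0, 0, 0, 0, 0, 0, 0]))
       (.leaf 29 [(3/125), (31/1000), (171/1000), (11/1000), (33/1000), (7/200), 0, 0, 0, 0, 0, 0, 0]))
      (.leaf 29 [(3/125), (31/1000), (313/1000), (11/1000), (33/1000), (7/200), 0, 0, 0, 0, 0, 0, 0]))
     (.leaf 29 [(3/125), (31/1000), (66/125), (11/1000), (33/1000), (7/200), 0, 0, 0, 0, 0, 0, 0]))
    (.leaf 29 [(3/125), (31/1000), (389/500), (11/1000), (33/1000), (7/200), 0, 0, 0, 0, 0, 0, 0]))
   (.leaf 29 [(3/125), (31/1000), (951/1000), (11/1000), (33/1000), (7/200), 0, 0, 0, 0, 0, 0, 0])))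

theorem scalar1 : sCheck (genP (4008017/1000000) 60 30) (T500S.V.map (SVec.emb sig)) 0 (21/500) T1 (fun _ => 0)
    (fun _ => (4008017/1000000)) = true := by
  decide +kernel

theorem scalar : sCheck (genP (4008017/1000000) 60 30) (T500W.V.map (SVec.pad 7)) 0 (1/140) T (fun _ => 0)
    (Function.update (fun _ => (4008017/1000000)) 0 (21/500)) = true := by
  decide +kernel

end Vale.Agent.P154.Anti.T500
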